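import Crest.Agent.R268.Model2
import Crest.Agent.R256.Rel

/-!
# Row 268: the example for S0409, S0410
-/

set_option autoImplicit false

namespace Crest.Agent.R268

open MvPolynomial Crest.Agent.R256

namespace Cusp

section
variable {R : Type} [CommRing R]

def h (a b c : R) : R := b ^ 2 - 2 * a * c
def v (a b c d : R) : R := a * d - b * h a b c
def s (a b c d : R) : R := a * d ^ 2 - 2 * b * d * h a b c + 2 * c * h a b c ^ 2
def F (a b c d : R) : R :=
  a + 2 * v a b c d * s a b c d ^ 2 - 3 * h a b c ^ 2 * s a b c d - 3 * h a b c * s a b c d ^ 3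
def h' (a b c d : R) : R := h a b c + s a b c d ^ 2
def v' (a b c d : R) : R := v a b c d + s a b c d ^ 3
def z (a b c d : R) : R :=
  b + 2 * s a b c d ^ 2 * (b * d - 2 * c * h a b c)
    - (3 * h a b c * s a b c d + 3 * s a b c d ^ 3) * d

theorem as_eq (a b c d : R) : a * s a b c d = v a b c d ^ 2 - h a b c ^ 3 := by
  have hh : h a b c = b ^ 2 - 2 * a * c := rfl
  unfold s v
  linear_combination h a b c ^ 2 * hh

theorem Fs_eq (a b c d : R) : F a b c d * s a b c d = v' a b c d ^ 2 - h' a b c d ^ 3 := by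
  unfold F v' h'
  linear_combination as_eq a b c d

theorem sat [Algebra ℂ R] (M : Subalgebra ℂ R) (a b c d : R)
    (hM : ∀ x, F a b c d * x ∈ M → x ∈ M) (h0 : h' a b c d ∈ M) (h1 : v' a b c d ∈ M)
    (h2 : z a b c d ∈ M) (h3 : F a b c d ∈ M) : a ∈ M ∧ b ∈ M ∧ c ∈ M ∧ d ∈ M := by
  have eh : h a b c = b ^ 2 - 2 * a * c := rfl
  have ev : v a b c d = a * d - b * h a b c := rfl
  have es : s a b c d = a * d ^ 2 - 2 * b * d * h a b c + 2 * c * h a b c ^ 2 := rfl
  have eF : F a b c d = a + 2 * v a b c d * s a b c d ^ 2 - 3 * h a b c ^ 2 * s a b c d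
    - 3 * h a b c * s a b c d ^ 3 := rfl
  have eh' : h' a b c d = h a b c + s a b c d ^ 2 := rfl
  have ev' : v' a b c d = v a b c d + s a b c d ^ 3 := rfl
  have ez : z a b c d = b + 2 * s a b c d ^ 2 * (b * d - 2 * c * h a b c)
    - (3 * h a b c * s a b c d + 3 * s a b c d ^ 3) * d := rfl
  have e1 := as_eq a b c d
  have e2 := Fs_eq a b c d
  generalize h' a b c d = H' at *
  generalize v' a b c d = V' at *
  generalize z a b c d = Z at *
  generalize F a b c d = F at *
  generalize s a b c d = s at *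
  generalize v a b c d = v at *
  generalize h a b c = h at *
  have ms : s ∈ M := by apply hM; rw [e2]; mem_tac
  have mh : h ∈ M := by rw [show h = H' - s ^ 2 by linear_combination -eh']; mem_tac
  have mv : v ∈ M := by rw [show v = V' - s ^ 3 by linear_combination -ev']; mem_tac
  have ma : a ∈ M := by
    rw [show a = F - (2 * v * s ^ 2 - 3 * h ^ 2 * s - 3 * h * s ^ 3) by linear_combination -eF]
    mem_tac
  have mb : b ∈ M := by
    apply hM
    rw [show F * b = a * Z - 2 * s ^ 2 * h ^ 2 + 3 * h * s * v + 3 * s ^ 3 * v by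
      rw [eF, ez]
      linear_combination (2 * s ^ 2 * b - 3 * h * s - 3 * s ^ 3) * ev + 2 * s ^ 2 * h * eh]
    mem_tac
  have md : d ∈ M := by
    apply hM
    rw [show F * d = h * Z + v + 2 * s ^ 3 by
      rw [eF, ez]
      linear_combination (2 * s ^ 2 * d - 1) * ev - 2 * s ^ 2 * es]
    mem_tac
  have m1 : a * c ∈ M := by
    apply mem_of_nat_mul M 2
    rw [show 2 * (a * c) = b ^ 2 - h by linear_combination eh]; mem_tac
  have m2 : h ^ 2 * c ∈ M := by
    apply mem_of_nat_mul M 2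
    rw [show 2 * (h ^ 2 * c) = s - a * d ^ 2 + 2 * b * d * h by linear_combination -es]; mem_tac
  have m3 : s ^ 2 * h * c ∈ M := by
    apply mem_of_nat_mul M 4
    rw [show 4 * (s ^ 2 * h * c) = b + 2 * s ^ 2 * b * d - (3 * h * s + 3 * s ^ 3) * d - Z by
      linear_combination ez]
    mem_tac
  have mc : c ∈ M := by
    apply hM; apply hM
    rw [show F * (F * c) = (a * c) * (2 * F - a + 4 * s ^ 5)
        + (h ^ 2 * c) * (4 * s ^ 4 * h + 9 * s ^ 2 * (h + s ^ 2) ^ 2)
        - (s ^ 2 * h * c) * (12 * v * s * (h + s ^ 2)) by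
      rw [eF]
      linear_combination (-4 * s ^ 4 * c) * e1]
    mem_tac
  exact ⟨ma, mb, mc, md⟩

theorem crit [Algebra ℂ R] (D : Derivation ℂ R R) (χ : R →+* ℂ) {a b c d : R} (ha : χ a = 2)
    (hb : χ b = 0) (hc : χ c = 1 / 4) (hd : χ d = -1 / 2) :
    χ (F a b c d) = 0 ∧ χ (D (F a b c d)) = 0 := by
  have eh : χ (h a b c) = -1 := by simp [h, ha, hb, hc, map_ofNat]; norm_num
  have ev : χ (v a b c d) = -1 := by simp [v, ha, hb, hd]; norm_num
  have es : χ (s a b c d) = 1 := by simp [s, eh, ha, hb, hc, hd, map_ofNat]; norm_num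
  have eF : χ (F a b c d) = 0 := by simp [F, eh, ev, es, ha, map_ofNat]
  have eh' : χ (h' a b c d) = 0 := by simp [h', eh, es]
  have ev' : χ (v' a b c d) = 0 := by simp [v', ev, es]
  refine ⟨eF, ?_⟩
  have := congrArg (fun x => χ (D x)) (Fs_eq a b c d)
  simpa [Derivation.leibniz_pow, eF, es, eh', ev'] using this

theorem map_F {R' : Type} [CommRing R'] (φ : R →+* R') (a b c d : R) :
    φ (F a b c d) = F (φ a) (φ b) (φ c) (φ d) := by
  simp [F, h, v, s, map_ofNat]

end

variable (m : ℕ)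

/-- the first four variables -/
noncomputable abbrev Y (i : Fin 4) : P (Fin (4 + m)) := X (Fin.castAdd m i)

noncomputable def psi : P (Fin (4 + m)) →ₐ[ℂ] P (Fin (4 + m)) :=
  aeval (Fin.addCases (motive := fun _ => P (Fin (4 + m)))
    ![h' (Y m 0) (Y m 1) (Y m 2) (Y m 3), v' (Y m 0) (Y m 1) (Y m 2) (Y m 3),
      z (Y m 0) (Y m 1) (Y m 2) (Y m 3), F (Y m 0) (Y m 1) (Y m 2) (Y m 3)]
    fun j => X (Fin.natAdd 4 j))

theorem psi_0 : psi m (Y m 0) = h' (Y m 0) (Y m 1) (Y m 2) (Y m 3) := by simp [psi]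
theorem psi_1 : psi m (Y m 1) = v' (Y m 0) (Y m 1) (Y m 2) (Y m 3) := by simp [psi]
theorem psi_2 : psi m (Y m 2) = z (Y m 0) (Y m 1) (Y m 2) (Y m 3) := by simp [psi]
theorem psi_3 : psi m (Y m 3) = F (Y m 0) (Y m 1) (Y m 2) (Y m 3) := by simp [psi]
theorem psi_r (j : Fin m) : psi m (X (Fin.natAdd 4 j)) = X (Fin.natAdd 4 j) := by simp [psi]

noncomputable def pt : Fin (4 + m) → ℂ :=
  Fin.addCases (motive := fun _ => ℂ) ![2, 0, 1 / 4, -1 / 2] fun _ => 0

theorem crit' (D : Derivation ℂ (P (Fin (4 + m))) (P (Fin (4 + m)))) :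
    eval (pt m) (psi m (Y m 3)) = 0 ∧ eval (pt m) (D (psi m (Y m 3))) = 0 := by
  rw [psi_3]
  exact crit D _ (by simp [pt]) (by simp [pt]) (by simp [pt]) (by simp [pt])

theorem model : Model (psi m) (Fin.castAdd m 3) := by
  constructor
  · rw [psi_3]
    intro h0
    have := congrArg (eval (Fin.addCases (motive := fun _ => ℂ) ![1, 0, 0, 0] fun _ => 0)) h0
    rw [map_F] at this
    simp [F, h, v, s] at this
  · have := sat (satAlg (psi m) (Y m 3)) (Y m 0) (Y m 1) (Y m 2) (Y m 3)
      (fun x hx => satAlg_sat (by rwa [psi_3])) (psi_0 m ▸ satAlg_base _) (psi_1 m ▸ satAlg_base _)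
      (psi_2 m ▸ satAlg_base _) (psi_3 m ▸ satAlg_base _)
    refine mem_all _ fun k => ?_
    refine Fin.addCases (fun i => ?_) (fun j => ?_) k
    · fin_cases i
      · exact this.1
      · exact this.2.1
      · exact this.2.2.1
      · exact this.2.2.2
    · exact psi_r m j ▸ satAlg_base _

theorem pderiv_psi (j : Fin m) (t : P (Fin (4 + m))) :
    pderiv (Fin.natAdd 4 j) (psi m t) = psi m (pderiv (Fin.natAdd 4 j) t) := by
  have hY : ∀ i, pderiv (Fin.natAdd 4 j) (Y m i) = 0 := fun i =>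
    pderiv_X_of_ne (by simp [Fin.ext_iff]; omega)
  have h2 : ∀ (n : ℕ) [n.AtLeastTwo],
      pderiv (Fin.natAdd 4 j) (OfNat.ofNat n : P (Fin (4 + m))) = 0 := fun n _ =>
    Derivation.map_natCast _ n
  have hX : ∀ k, pderiv (Fin.natAdd 4 j) (psi m (X k)) = psi m (pderiv (Fin.natAdd 4 j) (X k)) := by
    intro k
    refine Fin.addCases (fun i => ?_) (fun j' => ?_) k
    · rw [hY, map_zero]
      fin_cases i
      · exact (congrArg _ (psi_0 m)).trans (by simp [h', h, s, hY, h2, Derivation.leibniz_pow])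
      · exact (congrArg _ (psi_1 m)).trans (by simp [v', v, h, s, hY, h2, Derivation.leibniz_pow])
      · exact (congrArg _ (psi_2 m)).trans (by simp [z, h, s, hY, h2, Derivation.leibniz_pow])
      · exact (congrArg _ (psi_3 m)).trans (by simp [F, v, h, s, hY, h2, Derivation.leibniz_pow])
    · rw [psi_r, pderiv_X, Pi.single_apply]
      split_ifs <;> simp
  induction t using MvPolynomial.induction_on with
  | C c => simp
  | add p q hp hq => simp only [map_add, hp, hq]
  | mul_X p k hp =>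
    simp only [Derivation.leibniz, smul_eq_mul, map_add, map_mul, hp, hX]

end Cusp

end Crest.Agent.R268
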