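import Crest.Agent.R256.Basic

/-!
# The `ℤ ×ₗ ℤ`-filtration on `S` and top forms
-/

set_option autoImplicit false

namespace Crest.Agent.R268

open MvPolynomial Crest.Agent.R256

export Crest.Agent.R256 (em)

abbrev Γ : Type := ℤ ×ₗ ℤ

/-- weights: `y : (0,2)`, `x, z : (0,1)`, `ϖ : (-1,0)` (adapted from `R256/Top1.lean`) -/
def wt : Fin 4 → Γ := ![toLex (0, 2), toLex (0, 1), toLex (0, 1), toLex (-1, 0)]

/-- the equation `y² - x y z + x⁴` of the rigid surface -/
noncomputable def f0 : S := X 0 ^ 2 - X 0 * X 1 * X 2 + X 1 ^ 4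

theorem weight_wt (m : Fin 4 →₀ ℕ) :
    Finsupp.weight wt m = toLex (-(m 3 : ℤ), 2 * (m 0 : ℤ) + m 1 + m 2) := by
  rw [Finsupp.weight_eq_sum, Fin.sum_univ_four]
  change (m 0) • toLex ((0 : ℤ), (2 : ℤ)) + (m 1) • toLex ((0 : ℤ), (1 : ℤ))
    + (m 2) • toLex ((0 : ℤ), (1 : ℤ)) + (m 3) • toLex ((-1 : ℤ), (0 : ℤ)) = _
  change toLex ((m 0) • ((0 : ℤ), (2 : ℤ)) + (m 1) • ((0 : ℤ), (1 : ℤ))
    + (m 2) • ((0 : ℤ), (1 : ℤ)) + (m 3) • ((-1 : ℤ), (0 : ℤ))) = _
  congr 1
  ext
  · simp
  · simp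
    ring

/-- all monomials of `p` have weight at most `γ` -/
def F (γ : Γ) (p : S) : Prop := ∀ m ∈ p.support, Finsupp.weight wt m ≤ γ

/-- the component of weight `γ` -/
noncomputable abbrev cp (γ : Γ) : S →ₗ[ℂ] S := weightedHomogeneousComponent wt γ

theorem coeff_cp (γ : Γ) (p : S) (m : Fin 4 →₀ ℕ) :
    coeff m (cp γ p) = if Finsupp.weight wt m = γ then coeff m p else 0 :=
  coeff_weightedHomogeneousComponent γ p m

theorem F_of_coeff {γ : Γ} {p : S} (h : ∀ m, coeff m p ≠ 0 → Finsupp.weight wt m ≤ γ) : F γ p :=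
  fun m hm => h m (mem_support_iff.1 hm)

theorem F.le {γ : Γ} {p : S} (h : F γ p) {m : Fin 4 →₀ ℕ} (hm : coeff m p ≠ 0) :
    Finsupp.weight wt m ≤ γ :=
  h m (mem_support_iff.2 hm)

theorem F_zero (γ : Γ) : F γ 0 := by
  intro m hm
  simp at hm

theorem F.add {γ : Γ} {p q : S} (hp : F γ p) (hq : F γ q) : F γ (p + q) := by
  refine F_of_coeff fun m hm => ?_
  rw [coeff_add] at hm
  by_cases h : coeff m p = 0
  · rw [h, zero_add] at hm
    exact hq.le hm
  · exact hp.le h

theorem F.smul {γ : Γ} {p : S} (hp : F γ p) (c : ℂ) : F γ (c • p) := by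
  refine F_of_coeff fun m hm => ?_
  rw [coeff_smul, smul_eq_mul] at hm
  exact hp.le (right_ne_zero_of_mul hm)

theorem F.sub {γ : Γ} {p q : S} (hp : F γ p) (hq : F γ q) : F γ (p - q) := by
  have := hp.add (hq.smul (-1))
  rwa [neg_one_smul, ← sub_eq_add_neg] at this

theorem F.sum {γ : Γ} {ι : Type*} (s : Finset ι) {p : ι → S} (hp : ∀ i ∈ s, F γ (p i)) :
    F γ (∑ i ∈ s, p i) := by
  classical
  induction s using Finset.induction_on with
  | empty => simpa using F_zero γ
  | insert a s ha ih =>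
    rw [Finset.sum_insert ha]
    exact (hp a (Finset.mem_insert_self _ _)).add
      (ih fun i hi => hp i (Finset.mem_insert_of_mem hi))

theorem F.mono {γ γ' : Γ} {p : S} (hp : F γ p) (h : γ ≤ γ') : F γ' p := by
  exact fun m hm => (hp m hm).trans h

theorem F.mul {γ γ' : Γ} {p q : S} (hp : F γ p) (hq : F γ' q) : F (γ + γ') (p * q) := by
  intro m hm
  obtain ⟨a, ha, b, hb, rfl⟩ := Finset.mem_add.1 (support_mul p q hm)
  rw [map_add]
  exact add_le_add (hp a ha) (hq b hb)

/-- top components multiply (`coeff_mul`: a pair of monomials of total weight `γ + γ'` with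
weights `≤ γ`, `≤ γ'` has weights exactly `γ`, `γ'`) -/
theorem cp_mul {γ γ' : Γ} {p q : S} (hp : F γ p) (hq : F γ' q) :
    cp (γ + γ') (p * q) = cp γ p * cp γ' q := by
  ext m
  rw [coeff_cp, coeff_mul, coeff_mul]
  split_ifs with hm
  · refine Finset.sum_congr rfl fun x hx => ?_
    have hx' : x.1 + x.2 = m := Finset.HasAntidiagonal.mem_antidiagonal.1 hx
    rw [coeff_cp, coeff_cp]
    by_cases h1 : coeff x.1 p = 0
    · simp [h1]
    by_cases h2 : coeff x.2 q = 0
    · simp [h2]
    have e1 := hp.le h1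
    have e2 := hq.le h2
    rw [← hx', map_add] at hm
    have f1 : Finsupp.weight wt x.1 = γ := by
      by_contra hne
      exact (add_lt_add_of_lt_of_le (lt_of_le_of_ne e1 hne) e2).ne hm
    have f2 : Finsupp.weight wt x.2 = γ' := by
      rw [f1] at hm
      exact add_left_cancel hm
    rw [if_pos f1, if_pos f2]
  · symm
    refine Finset.sum_eq_zero fun x hx => ?_
    have hx' : x.1 + x.2 = m := Finset.HasAntidiagonal.mem_antidiagonal.1 hx
    rw [coeff_cp, coeff_cp]
    split_ifs with f1 f2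
    · exact absurd (by rw [← hx', map_add, f1, f2]) hm
    · simp
    · simp
    · simp

theorem F.pow {γ : Γ} {p : S} (hp : F γ p) (n : ℕ) : F (n • γ) (p ^ n) := by
  induction n with
  | zero =>
    refine F_of_coeff fun m hm => ?_
    rw [pow_zero, coeff_one] at hm
    have : (0 : Fin 4 →₀ ℕ) = m := by
      by_contra h
      exact hm (if_neg h)
    rw [← this, map_zero, zero_smul]
  | succ n ih =>
    rw [pow_succ, succ_nsmul]
    exact ih.mul hp

theorem cp_pow {γ : Γ} {p : S} (hp : F γ p) (n : ℕ) : cp (n • γ) (p ^ n) = cp γ p ^ n := by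
  induction n with
  | zero =>
    rw [pow_zero, pow_zero, zero_smul]
    exact (isWeightedHomogeneous_one ℂ wt).weightedHomogeneousComponent_same
  | succ n ih =>
    rw [pow_succ, succ_nsmul, cp_mul (hp.pow n) hp, ih, pow_succ]

theorem F_of_hom {γ : Γ} {p : S} (h : p.IsWeightedHomogeneous wt γ) : F γ p :=
  F_of_coeff fun _ hm => (h hm).le

theorem F_X (i : Fin 4) : F (wt i) (X i) := by
  exact F_of_hom (isWeightedHomogeneous_X ℂ wt i)

theorem cp_X (i : Fin 4) : cp (wt i) (X i : S) = X i := by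
  exact (isWeightedHomogeneous_X ℂ wt i).weightedHomogeneousComponent_same

theorem cp_eq_zero_of_lt {γ γ' : Γ} {p : S} (hp : F γ p) (h : γ < γ') : cp γ' p = 0 := by
  ext m
  rw [coeff_cp, coeff_zero]
  split_ifs with hm
  · by_contra hne
    exact absurd (hm ▸ hp.le hne) (not_le.2 h)
  · rfl

theorem F.pderiv {γ : Γ} {p : S} (hp : F γ p) (i : Fin 4) : F (γ - wt i) (pderiv i p) := by
  refine F_of_coeff fun m hm => ?_
  rw [coeff_pderiv] at hm
  have := hp.le (left_ne_zero_of_mul hm)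
  rw [map_add, Finsupp.weight_single, one_smul] at this
  exact le_sub_iff_add_le.2 this

theorem cp_pderiv (γ : Γ) (p : S) (i : Fin 4) :
    cp (γ - wt i) (pderiv i p) = pderiv i (cp γ p) := by
  ext m
  rw [coeff_cp, coeff_pderiv, coeff_pderiv, coeff_cp, map_add, Finsupp.weight_single, one_smul]
  by_cases h : Finsupp.weight wt m = γ - wt i
  · rw [if_pos h, if_pos (eq_sub_iff_add_eq.1 h)]
  · rw [if_neg h, if_neg fun h' => h (eq_sub_iff_add_eq.2 h'), zero_mul]

/-- a nonzero polynomial has a top form -/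
theorem exists_top_form {p : S} (hp : p ≠ 0) : ∃ γ, F γ p ∧ cp γ p ≠ 0 := by
  obtain ⟨m, hm, hmax⟩ := p.support.exists_max_image (Finsupp.weight wt)
    (Finset.nonempty_iff_ne_empty.2 fun h => hp (support_eq_empty.1 h))
  refine ⟨_, hmax, fun h => ?_⟩
  have := coeff_cp (Finsupp.weight wt m) p m
  rw [h, coeff_zero, if_pos rfl] at this
  exact mem_support_iff.1 hm this.symm

/-- the top component of a multiple of `a` is a multiple of the top form of `a`
(if `k ≠ 0` take its top form of weight `γₖ`; then `α + γₖ ≤ γ` as the component of weight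
`α + γₖ` of `a * k` is nonzero; use `cp_mul` if equal and `cp_eq_zero_of_lt` otherwise) -/
theorem cp_dvd {α γ : Γ} {a k : S} (ha : F α a) (ha0 : cp α a ≠ 0) (h : F γ (a * k)) :
    cp α a ∣ cp γ (a * k) := by
  rcases eq_or_ne k 0 with rfl | hk
  · simp
  obtain ⟨β, hβ, hβ0⟩ := exists_top_form hk
  have e := cp_mul ha hβ
  rcases lt_trichotomy (α + β) γ with h1 | h1 | h1
  · rw [cp_eq_zero_of_lt (ha.mul hβ) h1]
    exact dvd_zero _
  · rw [← h1, e]
    exact dvd_mul_right _ _
  · rw [cp_eq_zero_of_lt h h1] at e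
    exact absurd e.symm (mul_ne_zero ha0 hβ0)

theorem f0_hom : f0.IsWeightedHomogeneous wt (toLex (0, 4)) := by
  have h0 := (isWeightedHomogeneous_X ℂ wt 0).pow 2
  have h1 := ((isWeightedHomogeneous_X ℂ wt 0).mul (isWeightedHomogeneous_X ℂ wt 1)).mul
    (isWeightedHomogeneous_X ℂ wt 2)
  have h2 := (isWeightedHomogeneous_X ℂ wt 1).pow 4
  have e0 : 2 • wt 0 = toLex (0, 4) := by decide
  have e1 : wt 0 + wt 1 + wt 2 = toLex (0, 4) := by decide
  have e2 : 4 • wt 1 = toLex (0, 4) := by decide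
  rw [e0] at h0
  rw [e1] at h1
  rw [e2] at h2
  exact (h0.sub h1).add h2

theorem F_f0 : F (toLex (0, 4)) f0 := F_of_hom f0_hom

theorem cp_f0 : cp (toLex (0, 4)) f0 = f0 := f0_hom.weightedHomogeneousComponent_same

theorem f0_ne : f0 ≠ 0 := by
  intro h
  have := congrArg (eval ![1, 0, 0, 0]) h
  simp [f0] at this

theorem mono_dvd {s : Fin 4 →₀ ℕ} {p : S} (h : ∀ m, coeff m p ≠ 0 → s ≤ m) :
    monomial s (1 : ℂ) ∣ p := by
  rw [monomial_one_dvd_iff_modMonomial_eq_zero]
  ext m
  by_cases hm : s ≤ m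
  · rw [coeff_modMonomial_of_le _ hm, coeff_zero]
  · rw [coeff_modMonomial_of_not_le _ hm, coeff_zero]
    by_contra hne
    exact hm (h m hne)

/-- if all monomials have `ϖ`-exponent `≥ k` then `ϖ^k` divides -/
theorem F.X3_dvd {i j : ℤ} {p : S} (hp : F (toLex (i, j)) p) {k : ℕ} (hk : i ≤ -(k : ℤ)) :
    X 3 ^ k ∣ p := by
  rw [X_pow_eq_monomial]
  refine mono_dvd fun m hm => ?_
  have := hp.le hm
  rw [weight_wt, Prod.Lex.toLex_le_toLex] at this
  simp only at this
  rw [Finsupp.single_le_iff]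
  omega

theorem F.of_X3_mul {γ : Γ} {p : S} {k : ℕ} (hp : F (γ + k • wt 3) (X 3 ^ k * p)) : F γ p := by
  refine F_of_coeff fun m hm => ?_
  have h1 : coeff (Finsupp.single 3 k + m) (X 3 ^ k * p) ≠ 0 := by
    rwa [X_pow_eq_monomial, coeff_monomial_mul, one_mul]
  have := hp.le h1
  rw [map_add, Finsupp.weight_single, add_comm] at this
  exact le_of_add_le_add_right this

/-- a component of positive first weight vanishes -/
theorem cp_eq_zero_of_pos {i j : ℤ} (hi : 0 < i) (p : S) : cp (toLex (i, j)) p = 0 := by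
  ext m
  rw [coeff_cp, coeff_zero, if_neg]
  rw [weight_wt]
  intro h
  have := congrArg (fun x : Γ => (ofLex x).1) h
  simp only [ofLex_toLex] at this
  omega

theorem coeff_scale (c : ℂ) (p : S) (m : Fin 4 →₀ ℕ) :
    coeff m (aeval (![X 0, X 1, X 2, c • X 3] : Fin 4 → S) p) = c ^ (m 3) * coeff m p := by
  induction p using MvPolynomial.induction_on' with
  | add p q hp hq => simp only [map_add, coeff_add, hp, hq, mul_add]
  | monomial n a =>
    have e : aeval (![X 0, X 1, X 2, c • X 3] : Fin 4 → S) (monomial n a)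
        = c ^ (n 3) • monomial n a := by
      rw [aeval_monomial, monomial_eq, Finsupp.prod_fintype _ _ (by simp),
        Finsupp.prod_fintype _ _ (by simp), Fin.prod_univ_four, Fin.prod_univ_four]
      simp [smul_pow]
    rw [e, coeff_smul, smul_eq_mul, coeff_monomial]
    split_ifs with h
    · rw [h]
    · simp

theorem coeff_eps (p : S) (m : Fin 4 →₀ ℕ) :
    coeff m (eps p) = if m 3 = 0 then coeff m p else 0 := by
  have := coeff_scale 0 p m
  rw [zero_smul] at this
  rw [eps, this]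
  by_cases h : m 3 = 0
  · simp [h]
  · simp [h]

theorem F.eps {γ : Γ} {p : S} (hp : F γ p) : F γ (eps p) := by
  refine F_of_coeff fun m hm => hp.le fun h => hm ?_
  rw [coeff_eps, h, ite_self]

theorem cp_eps (j : ℤ) (p : S) : cp (toLex (0, j)) (eps p) = cp (toLex (0, j)) p := by
  ext m
  rw [coeff_cp, coeff_cp]
  split_ifs with h
  · rw [weight_wt] at h
    have := congrArg (fun x : Γ => (ofLex x).1) h
    simp only [ofLex_toLex] at this
    rw [coeff_eps, if_pos (by omega)]
  · rfl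

end Crest.Agent.R268
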