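import Crest.Agent.R268.Stable
import Crest.Agent.R268.Top1
import Crest.Agent.R256.Rel

/-!
# Row 268 (S0408): the affine modification and the fibres of `f`
-/

set_option autoImplicit false

namespace Crest.Agent.R268

open MvPolynomial Crest.Agent.R256

namespace Cross

variable {R : Type} [CommRing R]

theorem Fβ (p a b w : R) : y p a b w ^ 2 - y p a b w * x p a b w * z 1 p a b w + x p a b w ^ 4 =
    F 1 p a b w * (y p a b w * a + x p a b w * G p a b w) := by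
  linear_combination -Fb (one_pow 2) p a b w

theorem sat [Algebra ℂ R] (M : Subalgebra ℂ R) (p a b w : R)
    (hM : ∀ u, F 1 p a b w * u ∈ M → u ∈ M) (h0 : y p a b w ∈ M) (h1 : x p a b w ∈ M)
    (h2 : z 1 p a b w ∈ M) (h3 : F 1 p a b w ∈ M) : p ∈ M ∧ a ∈ M ∧ b ∈ M ∧ w ∈ M := by
  have ex : x p a b w = a * b ^ 2 + p * w := rfl
  have ey : y p a b w = x p a b w * b + p * a := rfl
  have eF : F 1 p a b w = p - 1 * x p a b w * y p a b w := rfl
  have eG : G p a b w = x p a b w ^ 2 * w - 2 * x p a b w * a ^ 2 * b - p * a ^ 3 := rfl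
  have ez : z 1 p a b w = b + 2 * 1 * y p a b w * a + x p a b w * G p a b w := rfl
  have e1 := Fβ p a b w
  have e2 := pG p a b w
  generalize z 1 p a b w = z at *
  generalize G p a b w = G at *
  generalize F 1 p a b w = F at *
  generalize y p a b w = y at *
  generalize x p a b w = x at *
  have mβ : y * a + x * G ∈ M := by apply hM; rw [← e1]; mem_tac
  have mp : p ∈ M := by rw [show p = F + x * y by linear_combination -eF]; mem_tac
  have ma : a ∈ M := by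
    apply hM
    rw [show F * a = y - x * (z - (y * a + x * G)) by linear_combination a * eF - ey + x * ez]
    mem_tac
  have mb : b ∈ M := by
    rw [show b = z - (y * a + x * G) - y * a by linear_combination -ez]
    mem_tac
  have mG : G ∈ M := by
    apply hM
    rw [show F * G = x ^ 3 - y * (y * a + x * G) by linear_combination G * eF + e2]
    mem_tac
  have mw : w ∈ M := by
    apply hM; apply hM
    rw [show F * (F * w) = (p - 2 * x * y) * (x - a * b ^ 2)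
        + y ^ 2 * (G + 2 * x * a ^ 2 * b + p * a ^ 3) by
      rw [eF]; linear_combination (2 * x * y - p) * ex - y ^ 2 * eG]
    mem_tac
  exact ⟨mp, ma, mb, mw⟩

/-- the zero fibre -/
theorem zero_fibre [IsDomain R] [Algebra ℂ R] (M : Subalgebra ℂ R) {E₁ E₂ W p a b w α : R}
    (h1 : E₁ ≠ 0) (h2 : E₂ ≠ 0)
    (hα : α = 1 - E₁ * E₂ ^ 3 * W + 2 * (E₁ * E₂ ^ 2) * E₁)
    (hp : p = E₁ * E₂ ^ 2 * (E₁ * E₂ ^ 3)) (ha : a = E₁ * α) (hb : b = E₂ * (1 - E₁ * E₂ ^ 2 * a))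
    (hw : w = W - 2 * (E₁ * E₂ ^ 2) * E₁ * W * (1 + α) + E₁ ^ 3 * E₂ * (4 * (1 + α) - α ^ 3)) :
    F 1 p a b w = 0 ∧ (p ∈ M → a ∈ M → b ∈ M → w ∈ M → E₁ ∈ M ∧ E₂ ∈ M ∧ W ∈ M) := by
  have ex : x p a b w = E₁ * E₂ ^ 2 := by
    rw [x, hp, hb, hw, ha]
    linear_combination (E₁ * E₂ ^ 2 * (1 - 2 * E₁ ^ 2 * E₂ ^ 2 * (1 + α))) * hα
  have ey : y p a b w = E₁ * E₂ ^ 3 := by
    rw [y, ex, hp, hb]; ring
  have eF : F 1 p a b w = 0 := by rw [F, ex, ey, hp]; ring
  refine ⟨eF, fun mp ma mb mw => ?_⟩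
  have mx : x p a b w ∈ M := by rw [x]; mem_tac
  have my : y p a b w ∈ M := by rw [y]; mem_tac
  have m2 : E₂ ∈ M := by
    rw [show E₂ = b + y p a b w * a by rw [ey, hb]; ring]; mem_tac
  have m1 : E₁ ∈ M := by
    have e1 := yE₁ (one_pow 2) p a b w 0
    have e2 := pG p a b w
    have : E₁ = Cross.E₁ 1 p a b w 0 := by
      apply mul_left_cancel₀ (pow_ne_zero 2 (mul_ne_zero h1 (pow_ne_zero 3 h2)))
      rw [ex, ey] at e2
      rw [eF, ey, ex] at e1
      generalize Cross.E₁ 1 p a b w 0 = U at *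
      generalize G p a b w = G at *
      rw [hp, ha] at e2
      rw [ha] at e1
      linear_combination -(E₁ * E₂ ^ 3) * e1 - e2
    rw [this, Cross.E₁, eF, n, mul_zero, sub_zero]; mem_tac
  refine ⟨m1, m2, ?_⟩
  have m3 : W * (E₁ ^ 2 * E₂ ^ 3) ∈ M := by
    rw [show W * (E₁ ^ 2 * E₂ ^ 3) = E₁ - a + 2 * E₁ ^ 3 * E₂ ^ 2 by rw [ha, hα]; ring]; mem_tac
  have m4 : W * (1 - 2 * E₁ * E₂ ^ 2 * (E₁ + a)) ∈ M := by
    rw [show W * (1 - 2 * E₁ * E₂ ^ 2 * (E₁ + a)) =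
      w - E₂ * (4 * E₁ ^ 2 * (E₁ + a) - a ^ 3) by rw [hw, ha]; ring]
    mem_tac
  rw [show W = W * (1 - 2 * E₁ * E₂ ^ 2 * (E₁ + a)) * (1 + 2 * E₁ * E₂ ^ 2 * (E₁ + a))
    + W * (E₁ ^ 2 * E₂ ^ 3) * (4 * E₂ * (E₁ + a) ^ 2) by ring]
  mem_tac

theorem base_pt {L : Type} [Field L] {X Y Z : L} (hX : X ≠ 0) (hY : Y ≠ 0)
    (h : Y ^ 2 - Y * X * Z + X ^ 4 = 0) :
    x (X * Y) 0 (Y / X) (1 / Y) = X ∧ y (X * Y) 0 (Y / X) (1 / Y) = Y ∧
      z 1 (X * Y) 0 (Y / X) (1 / Y) = Z ∧ F 1 (X * Y) 0 (Y / X) (1 / Y) = 0 := by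
  have h1 : x (X * Y) 0 (Y / X) (1 / Y) = X := by rw [x]; field_simp; ring
  have h2 : y (X * Y) 0 (Y / X) (1 / Y) = Y := by rw [y, h1]; field_simp; ring
  refine ⟨h1, h2, ?_, ?_⟩
  · rw [z, G, h1, h2]; field_simp; linear_combination h
  · rw [F, h1, h2]; ring

end Cross

noncomputable def psi : A →ₐ[ℂ] A :=
  aeval ![Cross.y (X 0) (X 1) (X 2) (X 3), Cross.x (X 0) (X 1) (X 2) (X 3),
    Cross.z 1 (X 0) (X 1) (X 2) (X 3), f]

theorem psi_0 : psi (X 0) = Cross.y (X 0) (X 1) (X 2) (X 3) := by simp [psi]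
theorem psi_1 : psi (X 1) = Cross.x (X 0) (X 1) (X 2) (X 3) := by simp [psi]
theorem psi_2 : psi (X 2) = Cross.z 1 (X 0) (X 1) (X 2) (X 3) := by simp [psi]
theorem psi_3 : psi (X 3) = f := by simp [psi]

theorem model : Model psi 3 := by
  constructor
  · rw [psi_3]
    intro h0
    have := congrArg (eval ![1, 0, 0, 0]) h0
    rw [f, Cross.map_F] at this
    simp [Cross.F, Cross.x] at this
  · have := Cross.sat (satAlg psi (X 3)) (X 0) (X 1) (X 2) (X 3)
      (fun x hx => satAlg_sat (by rwa [psi_3])) (psi_0 ▸ satAlg_base _) (psi_1 ▸ satAlg_base _)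
      (psi_2 ▸ satAlg_base _) (by have := satAlg_base (ψ := psi) (u := X 3) (X 3); rwa [psi_3] at this)
    refine mem_all _ fun k => ?_
    fin_cases k
    · exact this.1
    · exact this.2.1
    · exact this.2.2.1
    · exact this.2.2.2

theorem fibres (c : ℂ) : Nonempty ((A ⧸ Ideal.span {f - C c}) ≃ₐ[ℂ] P (Fin 3)) := by
  rcases eq_or_ne c 0 with rfl | hc
  · obtain ⟨θ, hθ⟩ := stable
    rw [map_zero, sub_zero]
    obtain ⟨α, hα⟩ : ∃ α : P (Fin 3), α = 1 - X 0 * X 1 ^ 3 * X 2 + 2 * (X 0 * X 1 ^ 2) * X 0 :=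
      ⟨_, rfl⟩
    let ρ : A →ₐ[ℂ] P (Fin 3) := aeval ![X 0 * X 1 ^ 2 * (X 0 * X 1 ^ 3), X 0 * α,
      X 1 * (1 - X 0 * X 1 ^ 2 * (X 0 * α)),
      X 2 - 2 * (X 0 * X 1 ^ 2) * X 0 * X 2 * (1 + α) + X 0 ^ 3 * X 1 * (4 * (1 + α) - α ^ 3)]
    obtain ⟨h1, h2⟩ := Cross.zero_fibre ρ.range (p := ρ (X 0)) (a := ρ (X 1)) (b := ρ (X 2))
      (w := ρ (X 3)) (X_ne_zero 0) (X_ne_zero 1) hα (by simp [ρ]) (by simp [ρ]) (by simp [ρ])
      (by simp [ρ])
    obtain ⟨m0, m1, m2⟩ := h2 ⟨_, rfl⟩ ⟨_, rfl⟩ ⟨_, rfl⟩ ⟨_, rfl⟩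
    refine fibre_of_stable θ hθ ρ (mem_all ρ.range fun k => ?_) ?_
    · fin_cases k
      · exact m0
      · exact m1
      · exact m2
    · exact (Cross.map_F ρ.toRingHom _ _ _ _ _).trans (by rw [map_one]; exact h1)
  · exact psi_3 ▸ model.fibre hc

theorem prime_f0 : Prime f0 := by
  let q : Polynomial (P (Fin 3)) :=
    Polynomial.X ^ 2 + Polynomial.C (-(X 0 * X 1)) * Polynomial.X + Polynomial.C (X 0 ^ 4)
  have h1 : finSuccEquiv ℂ 3 f0 = q := by
    have e1 : finSuccEquiv ℂ 3 (X 1) = Polynomial.C (X 0) := finSuccEquiv_X_succ (j := 0)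
    have e2 : finSuccEquiv ℂ 3 (X 2) = Polynomial.C (X 1) := finSuccEquiv_X_succ (j := 1)
    simp only [f0, q, map_add, map_sub, map_mul, map_pow, map_neg, e1, e2, finSuccEquiv_X_zero]
    ring
  have hm : q.Monic := by unfold q; monicity!
  have hd : q.natDegree = 2 := by unfold q; compute_degree!
  have hirr : Irreducible q := by
    rw [hm.irreducible_iff_roots_eq_zero_of_degree_le_three (by rw [hd]) (by rw [hd]; norm_num)]
    refine Multiset.eq_zero_of_forall_notMem fun ρ hρ => ?_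
    rw [Polynomial.mem_roots hm.ne_zero, Polynomial.IsRoot.def] at hρ
    have h2 := congrArg (aeval (R := ℂ) ![1, (Polynomial.X : Polynomial ℂ), 0]) hρ
    simp only [q, Polynomial.eval_add, Polynomial.eval_pow, Polynomial.eval_X, Polynomial.eval_mul,
      Polynomial.eval_C, map_add, map_mul, map_pow, map_neg, aeval_X, Matrix.cons_val_zero,
      Matrix.cons_val_one, map_zero, Polynomial.eval_neg] at h2
    generalize aeval (R := ℂ) ![1, (Polynomial.X : Polynomial ℂ), 0] ρ = r at h2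
    have h3 : r * (Polynomial.X - r) = 1 := by linear_combination -h2
    have h4 := Polynomial.natDegree_eq_zero_of_isUnit (IsUnit.of_mul_eq_one _ h3)
    have h5 := Polynomial.natDegree_eq_zero_of_isUnit (IsUnit.of_mul_eq_one_right _ h3)
    have h6 := Polynomial.natDegree_add_le r (Polynomial.X - r)
    rw [h4, h5, add_sub_cancel, Polynomial.natDegree_X] at h6
    simp at h6
  rw [← h1] at hirr
  exact ((MulEquiv.irreducible_iff (finSuccEquiv ℂ 3)).1 hirr).prime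

theorem dvd_base {a p : A} {i : ℕ} (hi : 0 < i) (h : f ^ i * a = psi p) : f0 ∣ eps p := by
  have : (Ideal.span {f0}).IsPrime := (Ideal.span_singleton_prime prime_f0.ne_zero).mpr prime_f0
  let L := FractionRing (S ⧸ Ideal.span {f0})
  let g : S →ₐ[ℂ] L := (IsScalarTower.toAlgHom ℂ (S ⧸ Ideal.span {f0}) L).comp
    (Ideal.Quotient.mkₐ ℂ _)
  have hg : ∀ s, g s = 0 ↔ f0 ∣ s := by
    intro s
    rw [← Ideal.mem_span_singleton, ← Ideal.Quotient.eq_zero_iff_mem]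
    exact map_eq_zero_iff _ (IsFractionRing.injective (S ⧸ Ideal.span {f0}) L)
  have h1 : g (X 0) ^ 2 - g (X 0) * g (X 1) * g (X 2) + g (X 1) ^ 4 = 0 := by
    have := (hg f0).mpr dvd_rfl
    simpa only [f0, map_add, map_sub, map_mul, map_pow] using this
  have hne : ∀ k : Fin 4, g (X k) ≠ 0 := fun k hk => by
    obtain ⟨t, ht⟩ := (hg _).1 hk
    have := congrArg (eval ![1, 1, 2, 1]) ht
    fin_cases k <;> simp [f0] at this <;> norm_num at this
  have h0 := hne 0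
  have h2 := hne 1
  let k : A →ₐ[ℂ] L := aeval ![g (X 1) * g (X 0), 0, g (X 0) / g (X 1), 1 / g (X 0)]
  obtain ⟨b1, b2, b3, b4⟩ := Cross.base_pt h2 h0 h1
  have kx : k (Cross.x (X 0) (X 1) (X 2) (X 3)) = g (X 1) :=
    (Cross.map_x k.toRingHom _ _ _ _).trans (by simpa [k] using b1)
  have ky : k (Cross.y (X 0) (X 1) (X 2) (X 3)) = g (X 0) :=
    (Cross.map_y k.toRingHom _ _ _ _).trans (by simpa [k] using b2)
  have kz : k (Cross.z 1 (X 0) (X 1) (X 2) (X 3)) = g (X 2) :=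
    (Cross.map_z k.toRingHom _ _ _ _ _).trans (by simpa [k] using b3)
  have kf : k f = 0 := (Cross.map_F k.toRingHom _ _ _ _ _).trans (by simpa [k] using b4)
  have hcomp : k.comp psi = g.comp eps := by
    ext i : 1
    fin_cases i
    · simpa [psi_0, eps] using ky
    · simpa [psi_1, eps] using kx
    · simpa [psi_2, eps] using kz
    · simpa [psi_3, eps] using kf
  have h3 := DFunLike.congr_fun hcomp p
  rw [AlgHom.comp_apply, AlgHom.comp_apply, ← h, map_mul, map_pow, kf, zero_pow hi.ne',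
    zero_mul] at h3
  exact (hg _).1 h3.symm

end Crest.Agent.R268
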