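import Crest.Agent.R256.Der

/-!
# Row 268: affine modifications `A[1/F] = ℂ[F, 1/F][x, y, z, …]`
-/

set_option autoImplicit false
set_option linter.unusedSectionVars false

namespace Crest.Agent.R268

open MvPolynomial

variable {σ : Type} [Fintype σ] [DecidableEq σ]

/-- elements `a` with `F^n a` in the image of `ψ` -/
noncomputable def satAlg {S A : Type} [CommRing S] [CommRing A] [Algebra ℂ S] [Algebra ℂ A]
    (ψ : S →ₐ[ℂ] A) (u : S) : Subalgebra ℂ A where
  carrier := {a | ∃ (n : ℕ) (s : S), ψ u ^ n * a = ψ s}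
  mul_mem' := by
    rintro a b ⟨m, s, hm⟩ ⟨n, t, hn⟩
    refine ⟨m + n, s * t, ?_⟩
    rw [map_mul, ← hm, ← hn]; ring
  add_mem' := by
    rintro a b ⟨m, s, hm⟩ ⟨n, t, hn⟩
    refine ⟨m + n, u ^ n * s + u ^ m * t, ?_⟩
    simp only [map_mul, map_add, map_pow, ← hm, ← hn]; ring
  algebraMap_mem' := fun r => ⟨0, algebraMap ℂ S r, by simp⟩

section
variable {S A : Type} [CommRing S] [CommRing A] [Algebra ℂ S] [Algebra ℂ A]
    {ψ : S →ₐ[ℂ] A} {u : S}

theorem satAlg_base (s : S) : ψ s ∈ satAlg ψ u := ⟨0, s, by simp⟩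

theorem satAlg_sat {a : A} (h : ψ u * a ∈ satAlg ψ u) : a ∈ satAlg ψ u := by
  obtain ⟨n, s, hn⟩ := h
  exact ⟨n + 1, s, by rw [← hn]; ring⟩

theorem mem_of_nat_mul (M : Subalgebra ℂ A) {a : A} (k : ℕ) [k.AtLeastTwo]
    (ha : (OfNat.ofNat k : A) * a ∈ M) : a ∈ M := by
  have hk : (OfNat.ofNat k : ℂ) ≠ 0 := OfNat.ofNat_ne_zero k
  have : a = (OfNat.ofNat k : ℂ)⁻¹ • ((OfNat.ofNat k : A) * a) := by
    rw [← map_ofNat (algebraMap ℂ A) k, ← Algebra.smul_def, smul_smul, inv_mul_cancel₀ hk, one_smul]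
  rw [this]; exact M.smul_mem ha _

/-- extension of a homomorphism that inverts `u` -/
theorem exists_lift (hinj : Function.Injective ψ)
    (hsat : ∀ a, a ∈ satAlg ψ u) {B : Type} [CommRing B] [Algebra ℂ B] (g : S →ₐ[ℂ] B)
    (hg : IsUnit (g u)) : ∃ ρ : A →ₐ[ℂ] B, ∀ s, ρ (ψ s) = g s := by
  obtain ⟨w, hw⟩ := hg.exists_left_inv
  choose n s hs using hsat
  have key : ∀ (a : A) (m : ℕ) (t : S), ψ u ^ m * a = ψ t → w ^ n a * g (s a) = w ^ m * g t := by
    intro a m t h
    have h1 : u ^ m * s a = u ^ n a * t := by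
      apply hinj
      simp only [map_mul, map_pow, ← h, ← hs a]; ring
    have h2 := congrArg g h1
    simp only [map_mul, map_pow] at h2
    have h3 : ∀ k : ℕ, w ^ k * g u ^ k = 1 := fun k => by rw [← mul_pow, hw, one_pow]
    linear_combination w ^ n a * w ^ m * h2 - w ^ n a * g (s a) * h3 m + w ^ m * g t * h3 (n a)
  have base : ∀ t : S, w ^ n (ψ t) * g (s (ψ t)) = g t := fun t => by
    rw [key (ψ t) 0 t (by simp)]; simp
  refine ⟨{ toFun := fun a => w ^ n a * g (s a), map_one' := ?_, map_mul' := ?_, map_zero' := ?_,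
            map_add' := ?_, commutes' := ?_ }, base⟩
  · simpa using base 1
  · intro a b
    rw [key (a * b) (n a + n b) (s a * s b) (by rw [map_mul, ← hs a, ← hs b]; ring), map_mul]
    ring
  · simpa using base 0
  · intro a b
    rw [key (a + b) (n a + n b) (u ^ n b * s a + u ^ n a * s b)
      (by simp only [map_mul, map_add, map_pow, ← hs a, ← hs b]; ring)]
    simp only [map_mul, map_add, map_pow]
    have h3 : ∀ k : ℕ, w ^ k * g u ^ k = 1 := fun k => by rw [← mul_pow, hw, one_pow]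
    linear_combination w ^ n a * g (s a) * h3 (n b) + w ^ n b * g (s b) * h3 (n a)
  · intro r
    simpa using base (algebraMap ℂ S r)

end

abbrev P (σ : Type) : Type := MvPolynomial σ ℂ

theorem mem_all (M : Subalgebra ℂ (P σ)) (h : ∀ k, X k ∈ M) (a : P σ) : a ∈ M := by
  induction a using MvPolynomial.induction_on with
  | C c => exact M.algebraMap_mem c
  | add p q hp hq => exact add_mem hp hq
  | mul_X p i hp => exact mul_mem hp (h i)

/-- `A[1/F] = ψ(S)[1/F]` with `F = ψ (X o)` -/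
structure Model (ψ : P σ →ₐ[ℂ] P σ) (o : σ) : Prop where
  ne : ψ (X o) ≠ 0
  sat : ∀ a, a ∈ satAlg ψ (X o)

theorem inj_of_sat {ψ : P σ →ₐ[ℂ] P σ} {u : P σ} (hu : ψ u ≠ 0) (hsat : ∀ a, a ∈ satAlg ψ u) :
    Function.Injective ψ := by
  have hψ : ψ = aeval (fun k => ψ (X k)) := by ext k : 1; simp
  have hr : Algebra.adjoin ℂ (Set.range fun k => ψ (X k)) = ψ.range := by
    conv_rhs => rw [hψ]
    exact Algebra.adjoin_range_eq_range_aeval ℂ _
  have : Algebra.IsAlgebraic (Algebra.adjoin ℂ (Set.range fun k => ψ (X k))) (P σ) := by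
    rw [hr]
    refine ⟨fun a => ?_⟩
    obtain ⟨n, s, h⟩ := hsat a
    refine ⟨Polynomial.C ⟨ψ u, u, rfl⟩ ^ n * Polynomial.X - Polynomial.C ⟨ψ s, s, rfl⟩, ?_, ?_⟩
    · intro h0
      have h1 := congrArg (Polynomial.coeff · 1) h0
      simp only [← Polynomial.C_pow, Polynomial.coeff_sub, Polynomial.coeff_C_mul,
        Polynomial.coeff_X_one, mul_one, Polynomial.coeff_C_succ, sub_zero,
        Polynomial.coeff_zero] at h1
      exact pow_ne_zero n hu (congrArg Subtype.val h1)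
    · simp only [map_sub, map_mul, map_pow, Polynomial.aeval_C, Polynomial.aeval_X]
      exact sub_eq_zero.2 h
  have h := Algebra.IsAlgebraic.isTranscendenceBasis_of_le_trdeg_of_finite ℂ
    (fun k => ψ (X k)) (by rw [MvPolynomial.trdeg_of_isDomain]; simp)
  rw [hψ]
  exact h.1

theorem Model.inj {ψ : P σ →ₐ[ℂ] P σ} {o : σ} (h : Model ψ o) : Function.Injective ψ :=
  inj_of_sat h.ne h.sat

/-- polynomial rings are Hopfian -/
theorem inj_of_surj {ψ : P σ →ₐ[ℂ] P σ} (h : Function.Surjective ψ) : Function.Injective ψ :=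
  inj_of_sat (u := 1) (by simp) fun a => by
    obtain ⟨s, rfl⟩ := h a
    exact satAlg_base s

end Crest.Agent.R268
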