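import Crest.Agent.R268.Model

/-!
# Row 268: derivations and fibres of a `Model`
-/

set_option autoImplicit false
set_option linter.unusedSectionVars false

namespace Crest.Agent.R268

open MvPolynomial

variable {σ : Type} [Fintype σ] [DecidableEq σ] {ψ : P σ →ₐ[ℂ] P σ} {o : σ}

theorem Model.exists_iota (h : Model ψ o) :
    ∃ ι : P σ →ₐ[ℂ] FractionRing (P σ), Function.Injective ι ∧
      ∀ s, ι (ψ s) = algebraMap (P σ) (FractionRing (P σ)) s := by
  have hinj := IsFractionRing.injective (P σ) (FractionRing (P σ))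
  obtain ⟨ι, hι⟩ := exists_lift h.inj h.sat (IsScalarTower.toAlgHom ℂ (P σ) (FractionRing (P σ)))
    (isUnit_iff_ne_zero.2 ((map_ne_zero_iff _ hinj).2 (X_ne_zero o)))
  refine ⟨ι, (injective_iff_map_eq_zero ι).2 fun a ha => ?_, hι⟩
  obtain ⟨n, s, hs⟩ := h.sat a
  have h1 := congrArg ι hs
  rw [map_mul, ha, mul_zero, hι] at h1
  have h2 : s = 0 := (map_eq_zero_iff _ hinj).1 h1.symm
  rw [h2, map_zero] at hs
  exact (mul_eq_zero.1 hs).resolve_left (pow_ne_zero _ h.ne)

theorem Model.exists_der (h : Model ψ o) {i : σ} (hi : i ≠ o) :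
    ∃ (N : ℕ) (D : Derivation ℂ (P σ) (P σ)), ∀ s, D (ψ s) = ψ (X o) ^ N * ψ (pderiv i s) := by
  obtain ⟨ι, hinj, hι⟩ := h.exists_iota
  choose n s hs using fun k => h.sat (X k)
  set N := ∑ k, n k
  have hle : ∀ k, n k ≤ N := fun k =>
    Finset.single_le_sum (f := n) (fun _ _ => Nat.zero_le _) (Finset.mem_univ k)
  set t : σ → P σ := fun k => X o ^ (N - n k) * s k with ht
  have hN : ∀ k, ψ (X o) ^ N * X k = ψ (t k) := by
    intro k
    obtain ⟨j, hj⟩ := Nat.exists_eq_add_of_le (hle k)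
    simp only [ht, map_mul, map_pow]
    rw [← hs k, hj, Nat.add_sub_cancel_left]; ring
  obtain ⟨E, hE⟩ := R256.exists_ext (R := P σ) (L := FractionRing (P σ))
    ((Algebra.linearMap (P σ) (FractionRing (P σ))).compDer (pderiv i))
  have hE' : ∀ s, E (ι (ψ s)) = ι (ψ (pderiv i s)) := fun s => by rw [hι, hι, hE]; rfl
  have hE0 : E (ι (ψ (X o))) = 0 := by rw [hE', pderiv_X_of_ne hi.symm]; simp
  refine ⟨N, mkDerivation ℂ fun k => ψ (pderiv i (t k)), fun s => hinj ?_⟩
  have key : ∀ a, ι (mkDerivation ℂ (fun k => ψ (pderiv i (t k))) a) =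
      ι (ψ (X o)) ^ N * E (ι a) := by
    intro a
    induction a using MvPolynomial.induction_on with
    | C c =>
      rw [derivation_C, ← algebraMap_eq, AlgHom.commutes, Derivation.map_algebraMap]; simp
    | add p q hp hq => simp only [map_add, hp, hq, mul_add]
    | mul_X p k hp =>
      have h1 := hE' (t k)
      rw [← hN k, map_mul, map_pow, Derivation.leibniz, Derivation.leibniz_pow, hE0] at h1
      simp only [smul_eq_mul, mul_zero, smul_zero, add_zero] at h1
      simp only [Derivation.leibniz, smul_eq_mul, map_add, map_mul, hp, mkDerivation_X, ← h1]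
      ring
  rw [key, hE', map_mul, map_pow]

theorem pderiv_comm' (i j : σ) (s : P σ) : pderiv i (pderiv j s) = pderiv j (pderiv i s) := by
  induction s using MvPolynomial.induction_on with
  | C c => simp
  | add p q hp hq => simp only [map_add, hp, hq]
  | mul_X p k hp =>
    have h : ∀ a b : σ, pderiv a (pderiv b (X k : P σ)) = 0 := by
      intro a b
      rw [pderiv_X, Pi.single_apply]
      split_ifs <;> simp
    simp only [Derivation.leibniz, smul_eq_mul, map_add, hp, h]
    ring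

/-- a polynomial killed by all partial derivatives but one is a polynomial in one variable -/
theorem exists_aeval_of_pderiv (s : P σ) (hs : ∀ i, i ≠ o → pderiv i s = 0) :
    ∃ q : Polynomial ℂ, s = Polynomial.aeval (X o : P σ) q := by
  have h1 : s ∈ supported ℂ ({o} : Set σ) := by
    rw [mem_supported]
    intro i hi
    by_contra hio
    rw [Finset.mem_coe, mem_vars_iff_mem_support] at hi
    obtain ⟨m, hm, hi⟩ := hi
    have h1 := coeff_pderiv (i := i) s (m - Finsupp.single i 1)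
    have h2 : m - Finsupp.single i 1 + Finsupp.single i 1 = m := by
      refine tsub_add_cancel_of_le ?_
      rw [Finsupp.single_le_iff]
      exact Nat.one_le_iff_ne_zero.2 (Finsupp.mem_support_iff.1 hi)
    rw [hs i hio, h2, coeff_zero] at h1
    rcases mul_eq_zero.1 h1.symm with h3 | h3
    · exact mem_support_iff.1 hm h3
    · exact absurd h3 (Nat.cast_add_one_ne_zero _)
  rw [supported_eq_adjoin_X, Set.image_singleton, Algebra.adjoin_singleton_eq_range_aeval] at h1
  obtain ⟨q, hq⟩ := h1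
  exact ⟨q, hq.symm⟩

theorem mem_adjoin_of_pow {A : Type} [CommRing A] [IsDomain A] [Algebra ℂ A] {F : A} (h0 : F ≠ 0)
    (χ : A →ₐ[ℂ] ℂ) (hχ : χ F = 0) (n : ℕ) :
    ∀ (p : A) (q : Polynomial ℂ), F ^ n * p = Polynomial.aeval F q → p ∈ Algebra.adjoin ℂ {F} := by
  induction n with
  | zero =>
    intro p q h
    rw [pow_zero, one_mul] at h
    rw [h]
    exact Polynomial.aeval_mem_adjoin_singleton ℂ F
  | succ n ih =>
    intro p q h
    have h1 := congrArg χ h
    rw [map_mul, map_pow, hχ, ← Polynomial.aeval_algHom_apply, hχ, zero_pow n.succ_ne_zero,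
      zero_mul, Polynomial.aeval_def, Polynomial.eval₂_at_zero] at h1
    obtain ⟨q', rfl⟩ := Polynomial.X_dvd_iff.2 (show q.coeff 0 = 0 from h1.symm)
    refine ih p q' (mul_left_cancel₀ h0 ?_)
    rw [map_mul, Polynomial.aeval_X] at h
    rw [← h]; ring

theorem der_adjoin {A : Type} [CommRing A] [Algebra ℂ A] {F : A} (D : Derivation ℂ A A)
    (χ : A →+* A) (hD : χ (D F) = 0) {p : A} (hp : p ∈ Algebra.adjoin ℂ {F}) : χ (D p) = 0 := by
  induction hp using Algebra.adjoin_induction with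
  | mem x hx => rw [Set.mem_singleton_iff.1 hx, hD]
  | algebraMap r => simp
  | add x y _ _ hx hy => simp [hx, hy]
  | mul x y _ _ hx hy => simp [hx, hy]

theorem der_sum_apply {A : Type} [CommRing A] [Algebra ℂ A] {I : Type} (s : Finset I)
    (E : I → Derivation ℂ A A) (p : A) : (∑ i ∈ s, E i) p = ∑ i ∈ s, E i p := by
  classical
  induction s using Finset.induction_on with
  | empty => simp
  | insert a s ha ih => rw [Finset.sum_insert ha, Finset.sum_insert ha, Derivation.add_apply, ih]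

theorem Model.family (h : Model ψ o) {I : Type} [Fintype I] (idx : I → σ)
    (hinj : Function.Injective idx) (hne : ∀ a, idx a ≠ o) (hsurj : ∀ i, i ≠ o → ∃ a, idx a = i)
    (E : I → Derivation ℂ (P σ) (P σ))
    (hE : ∀ a, ∃ N : ℕ, ∀ s, E a (ψ s) = ψ (X o) ^ N * ψ (pderiv (idx a) s))
    (χ : P σ →ₐ[ℂ] ℂ) (hχ : χ (ψ (X o)) = 0) :
    (∀ a b p, E a (E b p) = E b (E a p)) ∧ (∀ a p, ∃ k : ℕ, (E a)^[k] p = 0) ∧
      LinearIndependent (P σ) E ∧
      ∀ p, (∀ a, E a p = 0) ↔ p ∈ Algebra.adjoin ℂ {ψ (X o)} := by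
  classical
  choose N hN using hE
  have hF : ∀ a, E a (ψ (X o)) = 0 := fun a => by rw [hN, pderiv_X_of_ne (hne a).symm]; simp
  have hmul : ∀ a (n : ℕ) p, E a (ψ (X o) ^ n * p) = ψ (X o) ^ n * E a p := by
    intro a n p
    rw [Derivation.leibniz, Derivation.leibniz_pow, hF]; simp
  refine ⟨fun a b p => ?_, fun a p => ?_, ?_, fun p => ⟨fun hp => ?_, fun hp a => ?_⟩⟩
  · obtain ⟨n, s, hs⟩ := h.sat p
    apply mul_left_cancel₀ (pow_ne_zero n h.ne)
    rw [← hmul, ← hmul, ← hmul b, ← hmul a, hs, hN, hN, hmul, hmul, hN, hN, pderiv_comm']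
    ring
  · obtain ⟨n, s, hs⟩ := h.sat p
    obtain ⟨k, hk⟩ := R256.DerAux.pderiv_nil (idx a) s
    have key : ∀ k : ℕ, ψ (X o) ^ n * (E a)^[k] p =
        ψ (X o) ^ (k * N a) * ψ ((pderiv (idx a))^[k] s) := by
      intro k
      induction k with
      | zero => simpa using hs
      | succ k ih =>
        rw [Function.iterate_succ_apply', Function.iterate_succ_apply', ← hmul, ih, hmul, hN]
        ring
    have h1 := key k
    rw [hk, map_zero, mul_zero] at h1
    exact ⟨k, (mul_eq_zero.1 h1).resolve_left (pow_ne_zero _ h.ne)⟩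
  · rw [Fintype.linearIndependent_iff]
    intro g hg b
    have h1 := congrArg (fun D : Derivation ℂ (P σ) (P σ) => D (ψ (X (idx b)))) hg
    simp only [der_sum_apply, Derivation.smul_apply, hN, smul_eq_mul,
      Derivation.zero_apply] at h1
    rw [Finset.sum_eq_single b] at h1
    · rw [pderiv_X_self, map_one, mul_one] at h1
      exact (mul_eq_zero.1 h1).resolve_right (pow_ne_zero _ h.ne)
    · intro a _ hab
      rw [pderiv_X_of_ne (fun e => hab (hinj e).symm)]; simp
    · simp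
  · obtain ⟨n, s, hs⟩ := h.sat p
    obtain ⟨q, hq⟩ := exists_aeval_of_pderiv (o := o) s fun i hi => by
      obtain ⟨a, rfl⟩ := hsurj i hi
      have h1 := hN a s
      rw [← hs, hmul, hp, mul_zero] at h1
      exact h.inj (((mul_eq_zero.1 h1.symm).resolve_left (pow_ne_zero _ h.ne)).trans
        (map_zero ψ).symm)
    refine mem_adjoin_of_pow h.ne χ hχ n p q ?_
    rw [hs, hq, ← Polynomial.aeval_algHom_apply]
  · exact der_adjoin (E a) (RingHom.id _) (hF a) hp

/-- the conjugate `τ⁻¹ ∂ τ` -/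
noncomputable def conjDer (τ : P σ ≃ₐ[ℂ] P σ) (j : σ) : Derivation ℂ (P σ) (P σ) :=
  Derivation.mk'
    (τ.symm.toLinearMap ∘ₗ (pderiv j : Derivation ℂ _ _).toLinearMap ∘ₗ τ.toLinearMap) (by
      intro a b
      simp)

theorem conjDer_apply (τ : P σ ≃ₐ[ℂ] P σ) (j : σ) (a : P σ) :
    conjDer τ j a = τ.symm (pderiv j (τ a)) := rfl

theorem der_eq_sum (D : Derivation ℂ (P σ) (P σ)) (g : P σ) :
    D g = ∑ k, D (X k) * pderiv k g := by
  have : D = ∑ k, D (X k) • pderiv k := by
    refine derivation_ext fun i => ?_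
    simp only [der_sum_apply, Derivation.smul_apply, smul_eq_mul]
    rw [Finset.sum_eq_single i]
    · simp
    · intro a _ hab
      rw [pderiv_X_of_ne hab.symm]; simp
    · simp
  conv_lhs => rw [this]
  simp only [der_sum_apply, Derivation.smul_apply, smul_eq_mul]

/-- a polynomial with a critical point is not a coordinate -/
theorem not_coord_of_crit {g : P σ} (pt : σ → ℂ) (hg : ∀ k, eval pt (pderiv k g) = 0) (j : σ) :
    ¬ ∃ τ : P σ ≃ₐ[ℂ] P σ, τ g = X j := by
  rintro ⟨τ, hτ⟩
  have h1 := congrArg (eval pt) (der_eq_sum (conjDer τ j) g)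
  rw [conjDer_apply, hτ, pderiv_X_self] at h1
  simp [hg] at h1

/-- the general fibre -/
theorem Model.fibre {ψ : P (Fin 4) →ₐ[ℂ] P (Fin 4)} (h : Model ψ 3) {c : ℂ} (hc : c ≠ 0) :
    Nonempty ((P (Fin 4) ⧸ Ideal.span {ψ (X 3) - C c}) ≃ₐ[ℂ] P (Fin 3)) := by
  let g : P (Fin 4) →ₐ[ℂ] P (Fin 3) := aeval ![X 0, X 1, X 2, C c]
  let j : P (Fin 3) →ₐ[ℂ] P (Fin 4) := aeval ![X 0, X 1, X 2]
  have hg3 : g (X 3) = C c := by simp [g]
  obtain ⟨ρ, hρ⟩ := exists_lift h.inj h.sat g (by rw [hg3]; exact (isUnit_iff_ne_zero.2 hc).map C)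
  have hgj : ∀ t, g (j t) = t := fun t => by
    have : g.comp j = AlgHom.id ℂ _ := by
      ext k : 1; fin_cases k <;> simp [g, j]
    exact DFunLike.congr_fun this t
  have hjg : ∀ s, X 3 - C c ∣ s - j (g s) := fun s => by
    rw [← Ideal.mem_span_singleton, ← Ideal.Quotient.eq]
    have : (Ideal.Quotient.mkₐ ℂ (Ideal.span {(X 3 - C c : P (Fin 4))})) =
        (Ideal.Quotient.mkₐ ℂ _).comp (j.comp g) := by
      ext k : 1; fin_cases k
      · simp [g, j]
      · simp [g, j]
      · simp [g, j]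
      · simp only [g, j, Ideal.Quotient.mkₐ_eq_mk, AlgHom.comp_apply, aeval_X]
        rw [Ideal.Quotient.eq]
        simp
    exact DFunLike.congr_fun this s
  have hsurj : Function.Surjective ρ := fun t => ⟨ψ (j t), by rw [hρ, hgj]⟩
  have hker : Ideal.span {ψ (X 3) - C c} = RingHom.ker ρ := by
    apply le_antisymm
    · rw [Ideal.span_singleton_le_iff_mem, RingHom.mem_ker, map_sub, hρ, hg3]; simp
    · intro a ha
      obtain ⟨n, s, hs⟩ := h.sat a
      have h1 := congrArg ρ hs
      rw [map_mul, RingHom.mem_ker.1 ha, mul_zero, hρ] at h1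
      have h2 := map_dvd ψ (hjg s)
      rw [← h1, map_zero, sub_zero, ← hs, map_sub, algHom_C, algebraMap_eq] at h2
      have h3 : ψ (X 3) - C c ∣ (ψ (X 3) ^ n - C c ^ n) * a := (sub_dvd_pow_sub_pow _ _ n).mul_right a
      have h4 := dvd_sub h2 h3
      rw [show ψ (X 3) ^ n * a - (ψ (X 3) ^ n - C c ^ n) * a = C c ^ n * a by ring] at h4
      exact Ideal.mem_span_singleton.2
        ((((isUnit_iff_ne_zero.2 hc).map C).pow n).dvd_mul_left.1 h4)
  exact ⟨(Ideal.quotientEquivAlgOfEq ℂ hker).trans (Ideal.quotientKerAlgEquivOfSurjective hsurj)⟩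

end Crest.Agent.R268
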