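import Crest.Agent.R268.Top2

/-!
# Row 268 (S0408): rigidity of `y² - x y z + x⁴ = c`
-/

set_option autoImplicit false

namespace Crest.Agent.R268

open Polynomial Crest.Agent.R256

theorem rig_poly {L : Type*} [Field L] [CharZero L] (Ξ : Derivation ℤ L[X] L[X])
    (hd : ∀ p, (Ξ p).degree ≤ p.degree) {P Q R : L[X]} (hP : P ≠ 0) (hQ : Q ≠ 0) {c : L}
    (hc : c ≠ 0) (hΞ : Ξ (C c) = 0) (h : Q ^ 2 - Q * P * R + P ^ 4 = C c) :
    Ξ P * derivative Q - Ξ Q * derivative P = 0 := by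
  have h1 := congrArg Ξ h
  have h2 := congrArg derivative h
  simp only [map_add, map_sub, Derivation.leibniz, Derivation.leibniz_pow, hΞ, smul_eq_mul,
    nsmul_eq_mul, derivative_mul, derivative_pow, derivative_C, map_natCast] at h1 h2
  push_cast at h1 h2
  have h3 : P * Q ∣ C (4 * c) * (Ξ P * derivative Q - Ξ Q * derivative P) := by
    refine ⟨-(P * (Ξ Q * derivative R - Ξ R * derivative Q)
      + 2 * Q * (Ξ R * derivative P - Ξ P * derivative R)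
      + R * (Ξ P * derivative Q - Ξ Q * derivative P)), ?_⟩
    rw [C_mul, ← h, map_ofNat]
    linear_combination (P * derivative Q - 2 * Q * derivative P) * h1
      - (P * Ξ Q - 2 * Q * Ξ P) * h2
  rw [(isUnit_C.2 (mul_ne_zero (by norm_num) hc).isUnit).dvd_mul_left] at h3
  refine eq_zero_of_dvd_of_degree_lt h3 ?_
  have key : ∀ {U V : L[X]}, U ≠ 0 → V ≠ 0 → (Ξ U * derivative V).degree < (U * V).degree := by
    intro U V hU hV
    rw [degree_mul, degree_mul]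
    exact lt_of_le_of_lt (add_le_add_left (hd U) _)
      (WithBot.add_lt_add_left (degree_ne_bot.2 hU) (degree_derivative_lt hV))
  refine (degree_sub_le _ _).trans_lt (max_lt (key hP hQ) ?_)
  rw [mul_comm P Q]
  exact key hQ hP

theorem rig_core {L : Type*} [Field L] [Algebra ℂ L] (δ ξ : Derivation ℂ L L) {x y z : L}
    (hx : x ∈ Nil δ) (hy : y ∈ Nil δ) (hz : z ∈ Nil δ) (hx0 : x ≠ 0) (hy0 : y ≠ 0)
    (hc : y ^ 2 - y * x * z + x ^ 4 ≠ 0) (hδ : δ (y ^ 2 - y * x * z + x ^ 4) = 0)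
    (hξ : ξ (y ^ 2 - y * x * z + x ^ 4) = 0) : ξ x * δ y = ξ y * δ x := by
  have := lnd_charZero L
  let _ : Differential L := ⟨ξ.restrictScalars ℤ⟩
  obtain ⟨e, he⟩ := exists_ex δ
  have h0 : ∀ a : Nil δ, (e a).coeff 0 = (a : L) := fun a => by rw [he]; simp
  have h1 : ∀ a : Nil δ, (e a).coeff 1 = δ (a : L) := fun a => by rw [he]; simp
  have hne : ∀ a : Nil δ, (a : L) ≠ 0 → e a ≠ 0 := fun a ha h => ha (by rw [← h0, h, coeff_zero])
  have hrel : e ⟨y, hy⟩ ^ 2 - e ⟨y, hy⟩ * e ⟨x, hx⟩ * e ⟨z, hz⟩ + e ⟨x, hx⟩ ^ 4 =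
      C (y ^ 2 - y * x * z + x ^ 4) := by
    rw [← map_pow, ← map_pow, ← map_mul, ← map_mul, ← map_sub, ← map_add]
    ext n
    rw [he, coeff_C]
    change δ^[n] (y ^ 2 - y * x * z + x ^ 4) / _ = _
    split_ifs with h
    · subst h; simp
    · rw [lnd_iter_of_ker δ hδ (Nat.one_le_iff_ne_zero.2 h), zero_div]
  have h2 := rig_poly Differential.mapCoeffs (fun p => ?_) (hne ⟨x, hx⟩ hx0) (hne ⟨y, hy⟩ hy0) hc
    (by rw [Differential.mapCoeffs_C]; exact (congrArg C hξ).trans C_0) hrel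
  · have h3 := congrArg (coeff · 0) h2
    simp only [coeff_sub, mul_coeff_zero, coeff_derivative, Differential.coeff_mapCoeffs, h0,
      zero_add, h1, coeff_zero, Nat.cast_zero, mul_one] at h3
    exact sub_eq_zero.1 h3
  · refine degree_mono fun i hi => ?_
    rw [mem_support_iff] at hi ⊢
    exact fun h => hi (by simp [h])

theorem em_f0 : em f0 = v 0 ^ 2 - v 0 * v 1 * v 2 + v 1 ^ 4 := by simp [f0]

theorem rig {δ : Derivation ℂ K K} (hv : ∀ i, v i ∈ Nil δ) (hδ : δ (em f0) = 0) :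
    δ (v 0) = 0 ∧ δ (v 1) = 0 ∧ δ (v 2) = 0 := by
  have hc : em f0 ≠ 0 := fun h => f0_ne (em_inj (h.trans (map_zero em).symm))
  rw [em_f0] at hδ hc
  have hxy : v 0 * v 1 ≠ 0 := mul_ne_zero (v_ne 0) (v_ne 1)
  have hD : ∀ D : Derivation ℂ K K, D (v 0 ^ 2 - v 0 * v 1 * v 2 + v 1 ^ 4) =
      (2 * v 0 - v 1 * v 2) * D (v 0) + (4 * v 1 ^ 3 - v 0 * v 2) * D (v 1)
        - v 0 * v 1 * D (v 2) := by
    intro D
    simp only [map_add, map_sub, Derivation.leibniz, Derivation.leibniz_pow, smul_eq_mul,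
      nsmul_eq_mul]
    push_cast
    ring
  have h0 : δ (v 0) = 0 := by
    obtain ⟨ξ, h⟩ := exists_der ![0, v 0 * v 1, 4 * v 1 ^ 3 - v 0 * v 2, 0]
    have x0 : ξ (v 0) = 0 := h 0
    have x1 : ξ (v 1) = v 0 * v 1 := h 1
    have x2 : ξ (v 2) = 4 * v 1 ^ 3 - v 0 * v 2 := h 2
    have := rig_core δ ξ (hv 1) (hv 0) (hv 2) (v_ne 1) (v_ne 0) hc hδ
      (by rw [hD, x0, x1, x2]; ring)
    rw [x0, x1, zero_mul] at this
    exact (mul_eq_zero.1 this).resolve_left hxy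
  have h1 : δ (v 1) = 0 := by
    obtain ⟨ξ, h⟩ := exists_der ![v 0 * v 1, 0, 2 * v 0 - v 1 * v 2, 0]
    have x0 : ξ (v 0) = v 0 * v 1 := h 0
    have x1 : ξ (v 1) = 0 := h 1
    have x2 : ξ (v 2) = 2 * v 0 - v 1 * v 2 := h 2
    have := rig_core δ ξ (hv 1) (hv 0) (hv 2) (v_ne 1) (v_ne 0) hc hδ
      (by rw [hD, x0, x1, x2]; ring)
    rw [x0, x1, zero_mul] at this
    exact (mul_eq_zero.1 this.symm).resolve_left hxy
  refine ⟨h0, h1, ?_⟩
  rw [hD, h0, h1, mul_zero, mul_zero, zero_add, zero_sub, neg_eq_zero] at hδ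
  exact (mul_eq_zero.1 hδ).resolve_left hxy

end Crest.Agent.R268
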