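import Crest.Agent.R268.Ex
import Crest.Agent.R268.Rig

/-!
# Row 268 (S0408): `f` is not a coordinate
-/

set_option autoImplicit false

namespace Crest.Agent.R268

open MvPolynomial Crest.Agent.R256

theorem em_mem_Nil {δ : Derivation ℂ K K} (hv : ∀ i, v i ∈ Nil δ) (s : S) : em s ∈ Nil δ := by
  induction s using MvPolynomial.induction_on with
  | C c =>
    have : em (C c) = algebraMap ℂ K c := by
      rw [IsScalarTower.algebraMap_apply ℂ S K]; rfl
    rw [this]; exact (Nil δ).algebraMap_mem c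
  | add p q hp hq => rw [map_add]; exact (Nil δ).add_mem hp hq
  | mul_X p i hp => rw [map_mul]; exact (Nil δ).mul_mem hp (hv i)

/-- a locally nilpotent derivation killing `ϖ` and an element with a pole along `ϖ` vanishes -/
theorem kills (D : Derivation ℂ K K) (hD : ∀ i, ∃ (n : ℕ) (p : S), D (v i) * v 3 ^ n = em p)
    (hN : ∀ i, v i ∈ Nil D) (h3 : D (v 3) = 0) {u : K} (hu : D u = 0) {n : ℕ} {p : S}
    (hp : u * v 3 ^ n = em p) (hS : ∀ s, u ≠ em s)
    (hdvd : ∀ i : ℕ, 0 < i → ∀ q : S, u * v 3 ^ i = em q → f0 ∣ eps q) (i : Fin 4) :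
    D (v i) = 0 := by
  by_contra hi
  obtain ⟨δ, d, hδ, i0, hi0⟩ := exists_top_der D hD ⟨i, hi⟩
  have topv : ∀ i, Top (v i) (wt i) (v i) := by
    intro i
    have := top_em (F_X i)
    rwa [cp_X] at this
  have iter : ∀ (k : ℕ) {a g : K} {γ : Γ}, Top a γ g → ∃ γ', Top (D^[k] a) γ' (δ^[k] g) := by
    intro k a g γ h
    induction k with
    | zero => exact ⟨γ, h⟩
    | succ k ih =>
      obtain ⟨γ', h'⟩ := ih
      rw [Function.iterate_succ_apply', Function.iterate_succ_apply']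
      exact ⟨_, h'.step hδ⟩
  have hv : ∀ i, v i ∈ Nil δ := fun i => by
    obtain ⟨k, hk⟩ := hN i
    obtain ⟨γ, h⟩ := iter k (topv i)
    rw [hk] at h
    exact ⟨k, h.of_zero⟩
  have hw : δ (v 3) = 0 := by
    have := hδ 3
    rw [h3] at this
    exact this.of_zero
  obtain ⟨γ, g, hg0, hg⟩ := exists_top (fun h => hS 0 (h.trans (map_zero em).symm)) hp
  have hg1 : δ g = 0 := by
    have := hg.step hδ
    rw [hu] at this
    exact this.of_zero
  obtain ⟨⟨a, b⟩, rfl⟩ := toLex.surjective γ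
  have ha : 0 < a := by
    by_contra h
    obtain ⟨s, hs⟩ := hg.mem_of_nonpos (not_lt.1 h)
    exact hS s hs
  obtain ⟨m, rfl⟩ : ∃ m : ℕ, a = m := ⟨a.toNat, by omega⟩
  obtain ⟨k, hk⟩ := hg.dvd (hdvd m (by omega))
  rw [map_mul] at hk
  have hf : δ (em f0) = 0 := by
    refine ker_of_mul δ (em_mem_Nil hv _) (em_mem_Nil hv k) ?_ ?_
    · rw [← hk]; exact mul_ne_zero hg0 (pow_ne_zero _ (v_ne 3))
    · rw [← hk, Derivation.leibniz, Derivation.leibniz_pow, hw, hg1]; simp
  obtain ⟨r0, r1, r2⟩ := rig hv hf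
  apply hi0
  fin_cases i0
  · exact r0
  · exact r1
  · exact r2
  · exact hw

theorem not_coord : ¬ ∃ τ : A ≃ₐ[ℂ] A, τ f = X 0 := by
  rintro ⟨τ, hτ⟩
  obtain ⟨ι, hinj, hι⟩ := model.exists_iota
  have hι' : ∀ s, ι (psi s) = em s := hι
  have hf : ι f = v 3 := by rw [← psi_3, hι']
  have hsat : ∀ a, ∃ (n : ℕ) (s : S), ι a * v 3 ^ n = em s := fun a => by
    obtain ⟨n, s, hs⟩ := model.sat a
    exact ⟨n, s, by rw [← hι' s, ← hs, psi_3, map_mul, map_pow, hf, mul_comm]⟩
  -- a coordinate with a pole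
  obtain ⟨i, hi⟩ : ∃ i, ∀ s, ι (τ.symm (X i)) ≠ em s := by
    by_contra hc
    push Not at hc
    have h1 := mem_all ((IsScalarTower.toAlgHom ℂ S K).range.comap (ι.comp τ.symm))
      (fun k => by obtain ⟨s, hs⟩ := hc k; exact ⟨s, hs.symm⟩)
      (τ (Cross.y (X 0) (X 1) (X 2) (X 3) * X 1 +
        Cross.x (X 0) (X 1) (X 2) (X 3) * Cross.G (X 0) (X 1) (X 2) (X 3)))
    obtain ⟨s, hs⟩ := h1
    have h2 : psi f0 = f * (Cross.y (X 0) (X 1) (X 2) (X 3) * X 1 +
        Cross.x (X 0) (X 1) (X 2) (X 3) * Cross.G (X 0) (X 1) (X 2) (X 3)) := by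
      rw [f, ← Cross.Fβ]
      simp only [f0, map_add, map_sub, map_mul, map_pow, psi_0, psi_1, psi_2]
    have h3 := congrArg ι h2
    have hs' : em s = ι (τ.symm (τ _)) := hs
    rw [AlgEquiv.symm_apply_apply] at hs'
    rw [hι', map_mul, hf, ← hs'] at h3
    have h4 : f0 = X 3 * s := em_inj (h3.trans (map_mul em _ _).symm)
    have := congrArg (eval ![1, 0, 0, 0]) h4
    simp [f0] at this
  have hi0 : i ≠ 0 := by
    rintro rfl
    exact hi (X 3) (by rw [← hτ, AlgEquiv.symm_apply_apply, hf])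
  obtain ⟨j, hj0, hji⟩ : ∃ j : Fin 4, j ≠ 0 ∧ j ≠ i := by
    by_cases h : i = 1
    · exact ⟨2, by decide, by rw [h]; decide⟩
    · exact ⟨1, by decide, Ne.symm h⟩
  -- the derivation
  let D₀ := conjDer τ j
  obtain ⟨D, hD⟩ := exists_der fun k => ι (D₀ (psi (X k)))
  have hD1 : ∀ s, D (em s) = ι (D₀ (psi s)) := by
    intro s
    induction s using MvPolynomial.induction_on with
    | C c =>
      have : em (C c) = algebraMap ℂ K c := by
        rw [IsScalarTower.algebraMap_apply ℂ S K]; rfl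
      rw [this, algHom_C, Derivation.map_algebraMap, Derivation.map_algebraMap, map_zero]
    | add p q hp hq => simp only [map_add, hp, hq]
    | mul_X p k hp =>
      simp only [map_mul, Derivation.leibniz, smul_eq_mul, map_add, hp, hD, hι']
  have hD0 : D₀ f = 0 := by
    simp only [D₀, conjDer_apply, hτ, pderiv_X_of_ne hj0.symm, map_zero]
  have hD3 : D (v 3) = 0 := by rw [hD, psi_3, hD0, map_zero]
  have hD2 : ∀ a, D (ι a) = ι (D₀ a) := by
    intro a
    obtain ⟨n, s, hs⟩ := model.sat a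
    have h1 := hD1 s
    rw [← hι' s, ← hs, psi_3] at h1
    simp only [map_mul, map_pow, hf, Derivation.leibniz, Derivation.leibniz_pow, hD3, hD0,
      smul_eq_mul, mul_zero, smul_zero, add_zero] at h1
    exact mul_left_cancel₀ (pow_ne_zero _ (v_ne 3)) h1
  have hit : ∀ (n : ℕ) (a : A), D^[n] (ι a) = ι (τ.symm ((pderiv j)^[n] (τ a))) := by
    intro n
    induction n with
    | zero => intro a; simp
    | succ n ih =>
      intro a
      rw [Function.iterate_succ_apply, hD2, ih, Function.iterate_succ_apply]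
      simp only [D₀, conjDer_apply, AlgEquiv.apply_symm_apply]
  obtain ⟨n, p, hp⟩ := hsat (τ.symm (X i))
  have key := kills D (fun k => by rw [hD]; exact hsat _)
    (fun k => by
      obtain ⟨n, hn⟩ := DerAux.pderiv_nil j (τ (psi (X k)))
      exact ⟨n, by rw [show v k = ι (psi (X k)) from (hι' _).symm, hit, hn, map_zero, map_zero]⟩)
    hD3 (u := ι (τ.symm (X i)))
    (by simp only [hD2, D₀, conjDer_apply, AlgEquiv.apply_symm_apply, pderiv_X_of_ne hji.symm,
      map_zero]) hp hi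
    (fun m hm q hq => dvd_base (a := τ.symm (X i)) hm
      (hinj (by rw [hι', ← hq, map_mul, map_pow, hf, mul_comm])))
  obtain ⟨n', s, hs⟩ := hsat (τ.symm (X j))
  have h1 := congrArg D hs
  rw [der_em, Derivation.leibniz, Derivation.leibniz_pow, hD3, hD2] at h1
  simp only [D₀, conjDer_apply, AlgEquiv.apply_symm_apply, pderiv_X_self, map_one, key,
    smul_eq_mul, mul_zero, smul_zero, zero_add, mul_one, zero_mul, Finset.sum_const_zero] at h1
  exact pow_ne_zero _ (v_ne 3) h1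

end Crest.Agent.R268
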