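import Crest.Agent.R268.Cross
import Crest.Agent.R268.Model2

/-!
# Row 268 (S0408): `f = p - x y` is a stable coordinate, and its zero fibre is affine space
-/

set_option autoImplicit false

namespace Crest.Agent.R268

open MvPolynomial

theorem poly_inj_of_surj {σ : Type} [Fintype σ] [DecidableEq σ]
    {θ : Polynomial (P σ) →ₐ[ℂ] Polynomial (P σ)} (h : Function.Surjective θ) :
    Function.Injective θ := by
  let e := optionEquivLeft ℂ σ
  have := inj_of_surj (ψ := e.symm.toAlgHom.comp (θ.comp e.toAlgHom))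
    (e.symm.surjective.comp (h.comp e.surjective))
  have h2 : Function.Injective (θ ∘ e) := Function.Injective.of_comp (f := e.symm) this
  exact h2.of_comp_right e.surjective

theorem poly_mem_all {σ : Type} [Fintype σ] [DecidableEq σ] (M : Subalgebra ℂ (Polynomial (P σ)))
    (h : ∀ k, Polynomial.C (X k) ∈ M) (hX : Polynomial.X ∈ M) (a : Polynomial (P σ)) : a ∈ M := by
  induction a using Polynomial.induction_on' with
  | add p q hp hq => exact add_mem hp hq
  | monomial n a =>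
    rw [← Polynomial.C_mul_X_pow_eq_monomial]
    exact mul_mem (mem_all (M.comap Polynomial.CAlgHom) h a) (pow_mem hX n)

abbrev A : Type := P (Fin 4)

/-- the polynomial of S0408 -/
noncomputable def f : A := Cross.F 1 (X 0) (X 1) (X 2) (X 3)

namespace Stable

noncomputable abbrev Y (i : Fin 4) : Polynomial A := Polynomial.C (X i)

theorem not_dvd {u : Polynomial A}
    (h : ((eval ![0, 1, 1, 0]).comp (Polynomial.evalRingHom 0)) u = 1) : ¬ Y 0 ∣ u := by
  rintro ⟨k, rfl⟩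
  simp at h

theorem hx : ¬ Y 0 ∣ Cross.x (Y 0) (Y 1) (Y 2) (Y 3) :=
  not_dvd (by rw [Cross.map_x]; simp [Cross.x])

theorem hy : ¬ Y 0 ∣ Cross.y (Y 0) (Y 1) (Y 2) (Y 3) :=
  not_dvd (by rw [Cross.map_y]; simp [Cross.x, Cross.y])

theorem hp : Prime (Y 0) := Polynomial.prime_C_iff.2 X_prime

theorem hF : Cross.F 1 (Y 0) (Y 1) (Y 2) (Y 3) ≠ 0 := by
  intro h
  have := congrArg ((eval ![0, 1, 1, 0]).comp (Polynomial.evalRingHom 0)) h
  rw [Cross.map_F] at this
  simp [Cross.x, Cross.y, Cross.F] at this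

end Stable

open Stable in
theorem stable : ∃ θ : Polynomial A ≃ₐ[ℂ] Polynomial A,
    θ (Polynomial.C f) = Polynomial.C (X 0) := by
  obtain ⟨W, T₂, h⟩ := Cross.exists_rel (ε := 1) (T := Polynomial.X) (one_pow 2) hp hx hy
  obtain ⟨W', T', h'⟩ := Cross.exists_rel (ε := -1) (T := Polynomial.X) (by ring) hp hx hy
  let θ : Polynomial A →ₐ[ℂ] Polynomial A := Polynomial.aevalTower
    (aeval ![Cross.F 1 (Y 0) (Y 1) (Y 2) (Y 3), Cross.E₁ 1 (Y 0) (Y 1) (Y 2) (Y 3) Polynomial.X,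
      Cross.E₂ 1 (Y 0) (Y 1) (Y 2) (Y 3) Polynomial.X, W]) T₂
  have t0 : θ (Y 0) = Cross.F 1 (Y 0) (Y 1) (Y 2) (Y 3) := by simp [θ]
  have t1 : θ (Y 1) = Cross.E₁ 1 (Y 0) (Y 1) (Y 2) (Y 3) Polynomial.X := by simp [θ]
  have t2 : θ (Y 2) = Cross.E₂ 1 (Y 0) (Y 1) (Y 2) (Y 3) Polynomial.X := by simp [θ]
  have t3 : θ (Y 3) = W := by simp [θ]
  have t4 : θ Polynomial.X = T₂ := by simp [θ]
  have hy0 : Cross.y (Y 0) (Y 1) (Y 2) (Y 3) ≠ 0 := fun h => hy (h ▸ dvd_zero _)
  have h2 := h'.map θ.toRingHom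
  simp only [AlgHom.toRingHom_eq_coe, RingHom.coe_coe, t0, t1, t2, t3, t4, map_neg, map_one] at h2
  obtain ⟨e1, e2, e3, e4⟩ := Cross.mirror (one_pow 2) hp.ne_zero hy0 hF h h2
  have e0 := Cross.star_F (one_pow 2) hy0 h.hW
  have hs : Function.Surjective θ := by
    refine poly_mem_all θ.range (fun k => ?_) ⟨T', e4⟩
    fin_cases k
    · refine ⟨Cross.F (-1) (Y 0) (Y 1) (Y 2) (Y 3), (Cross.map_F θ.toRingHom _ _ _ _ _).trans ?_⟩
      simp only [AlgHom.toRingHom_eq_coe, RingHom.coe_coe, t0, t1, t2, t3, t4, map_neg, map_one]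
      exact e0
    · refine ⟨Cross.E₁ (-1) (Y 0) (Y 1) (Y 2) (Y 3) Polynomial.X,
        (Cross.map_E₁ θ.toRingHom _ _ _ _ _ _).trans ?_⟩
      simp only [AlgHom.toRingHom_eq_coe, RingHom.coe_coe, t0, t1, t2, t3, t4, map_neg, map_one]
      exact e1
    · refine ⟨Cross.E₂ (-1) (Y 0) (Y 1) (Y 2) (Y 3) Polynomial.X,
        (Cross.map_E₂ θ.toRingHom _ _ _ _ _ _).trans ?_⟩
      simp only [AlgHom.toRingHom_eq_coe, RingHom.coe_coe, t0, t1, t2, t3, t4, map_neg, map_one]
      exact e2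
    · exact ⟨W', e3⟩
  refine ⟨(AlgEquiv.ofBijective θ ⟨poly_inj_of_surj hs, hs⟩).symm, ?_⟩
  rw [AlgEquiv.symm_apply_eq, AlgEquiv.ofBijective_apply, t0, f, Cross.map_F, map_one]

/-- the zero fibre of a stable coordinate -/
theorem fibre_of_stable {g : A} (θ : Polynomial A ≃ₐ[ℂ] Polynomial A)
    (hθ : θ (Polynomial.C g) = Polynomial.C (X 0)) (ρ : A →ₐ[ℂ] P (Fin 3))
    (hρ : Function.Surjective ρ) (hg : ρ g = 0) :
    Nonempty ((A ⧸ Ideal.span {g}) ≃ₐ[ℂ] P (Fin 3)) := by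
  let π : Polynomial A →ₐ[ℂ] Polynomial (P (Fin 3)) := (Polynomial.mapAlgHom ρ).comp θ.symm
  let e : A →ₐ[ℂ] P (Fin 3) := aeval ![0, X 0, X 1, X 2]
  let j : P (Fin 3) →ₐ[ℂ] A := aeval ![X 1, X 2, X 3]
  have hπ0 : π (Polynomial.C (X 0)) = 0 := by
    simp only [π, AlgHom.comp_apply, ← hθ]
    simp [hg]
  have hje : ∀ s : A, X 0 ∣ s - j (e s) := fun s => by
    rw [← Ideal.mem_span_singleton, ← Ideal.Quotient.eq]
    have : (Ideal.Quotient.mkₐ ℂ (Ideal.span {(X 0 : A)})) =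
        (Ideal.Quotient.mkₐ ℂ _).comp (j.comp e) := by
      ext k : 1; fin_cases k
      · simp [e, j]
      · simp [e, j]
      · simp [e, j]
      · simp [e, j]
    exact DFunLike.congr_fun this s
  have hje' : ∀ s : Polynomial A, Polynomial.C (X 0) ∣
      s - Polynomial.mapAlgHom j (Polynomial.mapAlgHom e s) := fun s => by
    rw [Polynomial.C_dvd_iff_dvd_coeff]
    intro i
    simpa using hje (s.coeff i)
  have hfac : ∀ s, π (Polynomial.mapAlgHom j (Polynomial.mapAlgHom e s)) = π s := fun s => by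
    obtain ⟨k, hk⟩ := hje' s
    have := congrArg π hk
    rw [map_sub, map_mul, hπ0, zero_mul, sub_eq_zero] at this
    exact this.symm
  have hπs : Function.Surjective π :=
    (Polynomial.map_surjective (ρ : A →+* P (Fin 3)) hρ).comp θ.symm.surjective
  have hinj := poly_inj_of_surj (θ := π.comp (Polynomial.mapAlgHom j)) fun t => by
    obtain ⟨s, rfl⟩ := hπs t
    exact ⟨_, hfac s⟩
  have hker : Ideal.span {g} = RingHom.ker ρ := by
    apply le_antisymm
    · rw [Ideal.span_singleton_le_iff_mem, RingHom.mem_ker, hg]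
    · intro a ha
      have h1 : π (θ (Polynomial.C a)) = 0 := by simp [π, RingHom.mem_ker.1 ha]
      have h2 : Polynomial.mapAlgHom e (θ (Polynomial.C a)) = 0 :=
        hinj ((hfac _).trans (h1.trans (map_zero _).symm))
      have h3 := hje' (θ (Polynomial.C a))
      rw [h2, map_zero, sub_zero, ← hθ, map_dvd_iff θ, Polynomial.C_dvd_iff_dvd_coeff] at h3
      simpa [Ideal.mem_span_singleton] using h3 0
  exact ⟨(Ideal.quotientEquivAlgOfEq ℂ hker).trans (Ideal.quotientKerAlgEquivOfSurjective hρ)⟩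

end Crest.Agent.R268
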