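import Crest.Agent.R268.Top1
import Crest.Agent.R256.Der
import Crest.Agent.R256.Lnd

/-!
# Top forms of elements of `A` and of a locally nilpotent derivation
-/

set_option autoImplicit false

namespace Crest.Agent.R268

open MvPolynomial Crest.Agent.R256

/-- `a ∈ S[1/ϖ]` has weight `≤ γ` and `g` is its component of weight `γ` -/
def Top (a : K) (γ : Γ) (g : K) : Prop :=
  ∃ (n : ℕ) (p : S), a * v 3 ^ n = em p ∧ F (γ + n • wt 3) p ∧
    g * v 3 ^ n = em (cp (γ + n • wt 3) p)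

theorem top2_wt3 (i j : ℤ) (n : ℕ) :
    (toLex (i, j) : Γ) + n • wt 3 = toLex (i - n, j) := by
  have h : wt 3 = toLex (-1, 0) := rfl
  rw [h]
  change toLex (((i, j) : ℤ × ℤ) + n • ((-1, 0) : ℤ × ℤ)) = _
  congr 1
  ext <;> simp
  ring

theorem top2_em_smul (c : ℂ) (p : S) : em (c • p) = c • em p := by
  rw [Algebra.smul_def, Algebra.smul_def, map_mul]
  congr 1

theorem top2_F_X3_mul {γ : Γ} {p : S} (hp : F γ p) (k : ℕ) :
    F (γ + k • wt 3) (X 3 ^ k * p) := by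
  have := ((F_X 3).pow k).mul hp
  rwa [add_comm] at this

theorem top2_cp_X3_mul {γ : Γ} {p : S} (hp : F γ p) (k : ℕ) :
    cp (γ + k • wt 3) (X 3 ^ k * p) = X 3 ^ k * cp γ p := by
  have := cp_mul ((F_X 3).pow k) hp
  rw [cp_pow (F_X 3), cp_X, add_comm] at this
  exact this

theorem Top.of_zero {γ : Γ} {g : K} (h : Top 0 γ g) : g = 0 := by
  obtain ⟨n, p, h1, -, h3⟩ := h
  have hp : p = 0 := em_inj (by rw [← h1]; simp)
  subst hp
  simp only [map_zero] at h3
  exact (mul_eq_zero.1 h3).resolve_right (pow_ne_zero _ (v_ne 3))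

/-- the exponent can be taken as large as we like -/
theorem Top.large {a g : K} {γ : Γ} (h : Top a γ g) :
    ∃ N : ℕ, ∀ n, N ≤ n → ∃ p : S, a * v 3 ^ n = em p ∧ F (γ + n • wt 3) p ∧
      g * v 3 ^ n = em (cp (γ + n • wt 3) p) := by
  obtain ⟨N, p, h1, h2, h3⟩ := h
  refine ⟨N, fun n hn => ?_⟩
  obtain ⟨k, rfl⟩ := Nat.exists_eq_add_of_le hn
  have e : γ + (N + k) • wt 3 = γ + N • wt 3 + k • wt 3 := by rw [add_smul, add_assoc]
  refine ⟨X 3 ^ k * p, ?_, ?_, ?_⟩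
  · rw [map_mul, map_pow, ← h1, pow_add]; ring
  · rw [e]; exact top2_F_X3_mul h2 k
  · rw [e, top2_cp_X3_mul h2, map_mul, map_pow, ← h3, pow_add]; ring

theorem top_em {γ : Γ} {p : S} (hp : F γ p) : Top (em p) γ (em (cp γ p)) :=
  ⟨0, p, by simp, by simpa using hp, by simp⟩

/-- negative order in `ϖ` -/
theorem Top.dvd {a g : K} {i : ℕ} {j : ℤ} (h : Top a (toLex ((i : ℤ), j)) g)
    (hA : ∀ p : S, a * v 3 ^ i = em p → f0 ∣ eps p) :
    ∃ k : S, g * v 3 ^ i = em (f0 * k) := by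
  obtain ⟨N, hN⟩ := h.large
  obtain ⟨p, h1, h2, h3⟩ := hN (i + N) (by omega)
  have e : (toLex ((i : ℤ), j) : Γ) + (i + N) • wt 3 = toLex (0, j) + N • wt 3 := by
    rw [top2_wt3, top2_wt3]; congr 2; push_cast; ring
  rw [e] at h2 h3
  have hd : X 3 ^ N ∣ p := by
    have h2' := h2
    rw [top2_wt3] at h2'
    exact h2'.X3_dvd (by simp)
  obtain ⟨q, rfl⟩ := hd
  have hq : F (toLex (0, j)) q := F.of_X3_mul h2
  have hv : v 3 ^ N ≠ 0 := pow_ne_zero _ (v_ne 3)
  have h1' : a * v 3 ^ i = em q := by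
    apply mul_right_cancel₀ hv
    rw [mul_assoc, ← pow_add, h1, map_mul, map_pow]; ring
  have h3' : g * v 3 ^ i = em (cp (toLex (0, j)) q) := by
    apply mul_right_cancel₀ hv
    rw [mul_assoc, ← pow_add, h3, top2_cp_X3_mul hq, map_mul, map_pow]; ring
  obtain ⟨r, hr⟩ := hA q h1'
  have hF : F (toLex (0, j)) (f0 * r) := by rw [← hr]; exact hq.eps
  have := cp_dvd F_f0 (by rw [cp_f0]; exact f0_ne) hF
  rw [cp_f0, ← hr, cp_eps] at this
  obtain ⟨k, hk⟩ := this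
  exact ⟨k, by rw [h3', hk]⟩

theorem top2_leibniz (D : Derivation ℂ K K) {a : K} {n N : ℕ} {p : S} {c : Fin 4 → S}
    (h1 : a * v 3 ^ n = em p) (hc : ∀ i, D (v i) * v 3 ^ N = em (c i)) :
    D a * v 3 ^ (n + N + 1) =
      em (X 3 ^ 1 * ∑ i, c i * pderiv i p - (n : ℂ) • (c 3 * p)) := by
  have hD := congrArg D h1
  rw [der_em, Derivation.leibniz, Derivation.leibniz_pow] at hD
  simp only [smul_eq_mul, nsmul_eq_mul] at hD
  have hs : em (∑ i, c i * pderiv i p) = (∑ i, D (v i) * em (pderiv i p)) * v 3 ^ N := by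
    rw [map_sum, Finset.sum_mul]
    refine Finset.sum_congr rfl fun i _ => ?_
    rw [map_mul, ← hc i]; ring
  rw [map_sub, map_mul, hs, ← hD, top2_em_smul, map_mul, ← hc 3, ← h1, Algebra.smul_def,
    map_natCast, map_pow]
  rcases n with _ | n
  · simp; ring
  · simp only [Nat.add_sub_cancel]
    push_cast
    ring

/-- The key step.  If `D (v i) * ϖ^N = em (c i)`, `δ (v i) * ϖ^N = em (cp _ (c i))` and
`a ϖ^n = em p`, then `D a * ϖ^(n+N+1) = em (ϖ * ∑ c i * ∂ᵢ p - n * c 3 * p)` (Leibniz and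
`der_em`), and the same for `δ`, `g` with top components. -/
theorem Top.step {D δ : Derivation ℂ K K} {d : Γ} (hδ : ∀ i, Top (D (v i)) (d + wt i) (δ (v i)))
    {a g : K} {γ : Γ} (h : Top a γ g) : Top (D a) (γ + d) (δ g) := by
  choose Nf hNf using fun i => (hδ i).large
  set N := ∑ i, Nf i with hN
  choose c hc1 hc2 hc3 using fun i =>
    hNf i N (Finset.single_le_sum (f := Nf) (fun _ _ => Nat.zero_le _) (Finset.mem_univ i))
  obtain ⟨n, p, h1, h2, h3⟩ := h
  have e1 : ∀ i, d + wt i + N • wt 3 + (γ + n • wt 3 - wt i) = γ + d + (n + N) • wt 3 := by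
    intro i; rw [add_smul]; abel
  have e2 : γ + d + (n + N) • wt 3 + 1 • wt 3 = γ + d + (n + N + 1) • wt 3 := by
    rw [add_smul (n + N) 1, add_assoc (γ + d)]
  have e3 : d + wt 3 + N • wt 3 + (γ + n • wt 3) = γ + d + (n + N + 1) • wt 3 := by
    rw [add_smul, add_smul, one_smul]; abel
  have hsum : F (γ + d + (n + N) • wt 3) (∑ i, c i * pderiv i p) :=
    F.sum _ fun i _ => by rw [← e1 i]; exact (hc2 i).mul (h2.pderiv i)
  refine ⟨n + N + 1, X 3 ^ 1 * ∑ i, c i * pderiv i p - (n : ℂ) • (c 3 * p),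
    top2_leibniz D h1 hc1, ?_, ?_⟩
  · refine F.sub ?_ (F.smul ?_ _)
    · rw [← e2]; exact top2_F_X3_mul hsum 1
    · rw [← e3]; exact (hc2 3).mul h2
  · rw [top2_leibniz δ h3 hc3]
    congr 1
    rw [map_sub, map_smul]
    congr 1
    · rw [← e2, top2_cp_X3_mul hsum, map_sum]
      congr 1
      refine Finset.sum_congr rfl fun i _ => ?_
      rw [← e1 i, cp_mul (hc2 i) (h2.pderiv i), cp_pderiv]
    · rw [← e3, cp_mul (hc2 3) h2]

/-- The top form of a derivation that maps the variables into `S[1/ϖ]` and does not kill all of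
them: take a common exponent `N`, `D (v i) * ϖ^N = em (c i)`, top weights `γ i` of the nonzero
`c i`, `d' = max (γ i - wt i)`, `d = d' - N • wt 3`, `δ (v i) = em (cp (d' + wt i) (c i)) / ϖ^N`
(`exists_der`). -/
theorem exists_top_der (D : Derivation ℂ K K)
    (hD : ∀ i, ∃ (n : ℕ) (p : S), D (v i) * v 3 ^ n = em p) (h0 : ∃ i, D (v i) ≠ 0) :
    ∃ (δ : Derivation ℂ K K) (d : Γ), (∀ i, Top (D (v i)) (d + wt i) (δ (v i))) ∧
      ∃ i, δ (v i) ≠ 0 := by
  classical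
  choose nf pf hpf using hD
  set N := ∑ i, nf i with hN
  have hle : ∀ i, nf i ≤ N := fun i =>
    Finset.single_le_sum (f := nf) (fun _ _ => Nat.zero_le _) (Finset.mem_univ i)
  set c : Fin 4 → S := fun i => X 3 ^ (N - nf i) * pf i with hcdef
  have hc : ∀ i, D (v i) * v 3 ^ N = em (c i) := by
    intro i
    obtain ⟨k, hk⟩ := Nat.exists_eq_add_of_le (hle i)
    simp only [hcdef]
    rw [map_mul, map_pow, ← hpf i, hk, Nat.add_sub_cancel_left, pow_add]; ring
  have hv : v 3 ^ N ≠ 0 := pow_ne_zero _ (v_ne 3)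
  have hex : ∀ i, ∃ γ : Γ, c i ≠ 0 → F γ (c i) ∧ cp γ (c i) ≠ 0 := by
    intro i
    by_cases hi : c i = 0
    · exact ⟨0, fun h => absurd hi h⟩
    · obtain ⟨γ, h⟩ := exists_top_form hi
      exact ⟨γ, fun _ => h⟩
  choose γ hγ using hex
  have hne : (Finset.univ.filter fun i => c i ≠ 0).Nonempty := by
    obtain ⟨i, hi⟩ := h0
    refine ⟨i, Finset.mem_filter.2 ⟨Finset.mem_univ _, fun h => ?_⟩⟩
    have := hc i
    rw [h, map_zero] at this
    exact hi ((mul_eq_zero.1 this).resolve_right hv)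
  obtain ⟨i0, hi0, hmax⟩ := Finset.exists_max_image _ (fun i => γ i - wt i) hne
  have hi0' : c i0 ≠ 0 := (Finset.mem_filter.1 hi0).2
  set d' := γ i0 - wt i0 with hd'
  have hF : ∀ i, F (d' + wt i) (c i) := by
    intro i
    by_cases hi : c i = 0
    · rw [hi]; exact F_zero _
    · refine (hγ i hi).1.mono ?_
      have := hmax i (Finset.mem_filter.2 ⟨Finset.mem_univ _, hi⟩)
      exact sub_le_iff_le_add.1 this
  obtain ⟨δ, hδ⟩ := exists_der fun i => em (cp (d' + wt i) (c i)) / v 3 ^ N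
  refine ⟨δ, d' - N • wt 3, fun i => ?_, i0, ?_⟩
  · have e : d' - N • wt 3 + wt i + N • wt 3 = d' + wt i := by abel
    refine ⟨N, c i, hc i, ?_, ?_⟩
    · rw [e]; exact hF i
    · rw [e, hδ i]; exact div_mul_cancel₀ _ hv
  · rw [hδ i0]
    refine div_ne_zero (fun h => ?_) hv
    have e : d' + wt i0 = γ i0 := by rw [hd']; abel
    rw [e] at h
    exact (hγ i0 hi0').2 (em_inj (h.trans (map_zero em).symm))

/-- if the weight of `a` has first coordinate `≤ 0` then `a ∈ S` -/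
theorem Top.mem_of_nonpos {a g : K} {i j : ℤ} (h : Top a (toLex (i, j)) g) (hi : i ≤ 0) :
    ∃ s : S, a = em s := by
  obtain ⟨n, p, h1, h2, -⟩ := h
  rw [top2_wt3] at h2
  obtain ⟨s, hs⟩ := h2.X3_dvd (k := n) (by omega)
  refine ⟨s, mul_right_cancel₀ (pow_ne_zero n (v_ne 3)) ?_⟩
  rw [h1, hs, map_mul, map_pow]; ring

theorem exists_top {a : K} (h0 : a ≠ 0) {n : ℕ} {p : S} (h : a * v 3 ^ n = em p) :
    ∃ γ g, g ≠ 0 ∧ Top a γ g := by
  have hv : v 3 ^ n ≠ 0 := pow_ne_zero _ (v_ne 3)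
  have hp : p ≠ 0 := by
    rintro rfl
    exact mul_ne_zero h0 hv (h.trans (map_zero em))
  obtain ⟨γ, h1, h2⟩ := exists_top_form hp
  refine ⟨γ - n • wt 3, em (cp γ p) / v 3 ^ n,
    div_ne_zero (fun h => h2 (em_inj (h.trans (map_zero em).symm))) hv, n, p, h, ?_, ?_⟩
  · rwa [sub_add_cancel]
  · rw [sub_add_cancel, div_mul_cancel₀ _ hv]

end Crest.Agent.R268
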